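import Mathlib

/-!
Elementary arithmetic of rational points on `y ^ 2 = x ^ 3 - 2 x`.
-/

set_option autoImplicit false

namespace Crest.Agent.R323

theorem not_both {a b p : ℤ} (h : IsCoprime a b) (hp : Prime p) (ha : p ∣ a) (hb : p ∣ b) :
    False :=
  hp.not_isUnit (h.isUnit_of_dvd' ha hb)

/-- Three integers without a common prime factor. -/
def Prim3 (a b c : ℤ) : Prop := ∀ p : ℤ, Prime p → p ∣ a → p ∣ b → p ∣ c → False

theorem Prim3.dvd {a b c n k : ℤ} (h : Prim3 a b c) (ha0 : a ≠ 0) (ha : n ∣ k * a)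
    (hb : n ∣ k * b) (hc : n ∣ k * c) : n ∣ k := by
  have h1 : IsCoprime a (gcd b c) :=
    isCoprime_of_prime_dvd (fun h => ha0 h.1) fun z hz h1 h2 =>
      h z hz h1 (h2.trans (gcd_dvd_left _ _)) (h2.trans (gcd_dvd_right _ _))
  have h2 : n ∣ k * gcd b c := by
    have := dvd_gcd hb hc
    exact this.trans (gcd_mul_left' k b c).dvd
  obtain ⟨u, v, huv⟩ := h1
  have : k = u * (k * a) + v * (k * gcd b c) := by
    linear_combination (-k) * huv
  rw [this]
  exact dvd_add (ha.mul_left _) (h2.mul_left _)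

theorem num_eq_of {x : ℚ} {N D : ℤ} (hD : 0 < D) (h : IsCoprime N D) (hx : x * D = N) :
    x.num = N := by
  have : x = (N : ℚ) / D := by
    rw [eq_div_iff (by exact_mod_cast hD.ne'), hx]
  rw [this]
  exact Rat.num_div_eq_of_coprime hD (Int.isCoprime_iff_gcd_eq_one.1 h)

theorem den_eq_of {x : ℚ} {N D : ℤ} (hD : 0 < D) (h : IsCoprime N D) (hx : x * D = N) :
    (x.den : ℤ) = D := by
  have : x = (N : ℚ) / D := by
    rw [eq_div_iff (by exact_mod_cast hD.ne'), hx]
  rw [this]
  exact Rat.den_div_eq_of_coprime hD (Int.isCoprime_iff_gcd_eq_one.1 h)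

theorem mul_den_eq (x : ℚ) : x * ((x.den : ℤ) : ℚ) = (x.num : ℚ) := by
  simp

/-- Gauss lemma for the monic quadratic with roots `u`, `v`. -/
theorem num_mul_num {u v : ℚ} {w0 w1 w2 : ℤ} (h0 : 0 < w0) (hw : Prim3 w0 w1 w2)
    (hs : (u + v) * w0 = w1) (hp : u * v * w0 = w2) : u.num * v.num = w2 := by
  have hu := mul_den_eq u
  have hv := mul_den_eq v
  have cu := u.isCoprime_num_den
  have cv := v.isCoprime_num_den
  have pu : (0 : ℤ) < u.den := by exact_mod_cast u.den_pos
  have pv : (0 : ℤ) < v.den := by exact_mod_cast v.den_pos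
  generalize u.num = a at *
  generalize (u.den : ℤ) = b at *
  generalize v.num = c at *
  generalize (v.den : ℤ) = d at *
  have hP : Prim3 (b * d) (a * d + c * b) (a * c) := by
    intro p hp h1 h2 h3
    rcases hp.dvd_or_dvd h1 with h1 | h1 <;> rcases hp.dvd_or_dvd h3 with h3 | h3
    · exact not_both cu hp h3 h1
    · have : p ∣ a * d := (dvd_add_left (h1.mul_left c)).1 h2
      rcases hp.dvd_or_dvd this with h | h
      · exact not_both cu hp h h1
      · exact not_both cv hp h3 h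
    · have : p ∣ c * b := (dvd_add_right (h1.mul_left a)).1 h2
      rcases hp.dvd_or_dvd this with h | h
      · exact not_both cv hp h h1
      · exact not_both cu hp h3 h
    · exact not_both cv hp h3 h1
  have e1 : (a * d + c * b) * w0 = w1 * (b * d) := by
    have : (((a * d + c * b) * w0 : ℤ) : ℚ) = ((w1 * (b * d) : ℤ) : ℚ) := by
      push_cast
      rw [← hu, ← hv, ← hs]
      ring
    exact_mod_cast this
  have e2 : (a * c) * w0 = w2 * (b * d) := by
    have : (((a * c) * w0 : ℤ) : ℚ) = ((w2 * (b * d) : ℤ) : ℚ) := by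
      push_cast
      rw [← hu, ← hv, ← hp]
      ring
    exact_mod_cast this
  have d1 : b * d ∣ w0 := hP.dvd (mul_pos pu pv).ne' (dvd_mul_left _ _)
    ⟨w1, by linear_combination e1⟩ ⟨w2, by linear_combination e2⟩
  have d2 : w0 ∣ b * d := hw.dvd h0.ne' (dvd_mul_left _ _)
    ⟨a * d + c * b, by linear_combination -e1⟩ ⟨a * c, by linear_combination -e2⟩
  have e0 : b * d = w0 := Int.dvd_antisymm (mul_pos pu pv).le h0.le d1 d2
  rw [e0] at e2
  exact mul_right_cancel₀ h0.ne' e2

/-- `x`-coordinate of `(x, y) + (2, 2)`. -/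
def xp (x y : ℚ) : ℚ := ((y - 2) / (x - 2)) ^ 2 - x - 2

theorem xp_add {x y : ℚ} (h : y ^ 2 = x ^ 3 - 2 * x) (hx : x ≠ 2) :
    (xp x y + xp x (-y)) * (x - 2) ^ 2 = 4 * (x + 2) * (x - 1) := by
  have : x - 2 ≠ 0 := sub_ne_zero.2 hx
  unfold xp
  field_simp
  linear_combination 2 * h

theorem xp_mul {x y : ℚ} (h : y ^ 2 = x ^ 3 - 2 * x) (hx : x ≠ 2) :
    (xp x y * xp x (-y)) * (x - 2) ^ 2 = 4 * (x + 1) ^ 2 := by
  have : x - 2 ≠ 0 := sub_ne_zero.2 hx
  unfold xp
  field_simp
  linear_combination (y ^ 2 - x ^ 3 + 4 * x ^ 2 + 6 * x - 24) * h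

theorem one_lt_of {x y : ℚ} (h : y ^ 2 = x ^ 3 - 2 * x) (hx : 0 < x) : 1 < x := by
  by_contra hc
  push Not at hc
  have : x * (x ^ 2 - 2) < 0 := mul_neg_of_pos_of_neg hx (by nlinarith)
  nlinarith [sq_nonneg y]

theorem xp_pos {x y : ℚ} (h : y ^ 2 = x ^ 3 - 2 * x) (hx : x ≠ 2) (h0 : 0 < x) : 0 < xp x y := by
  have h1 := one_lt_of h h0
  have hs := xp_add h hx
  have hp := xp_mul h hx
  have h2 : 0 < (x - 2) ^ 2 := by
    have : x - 2 ≠ 0 := sub_ne_zero.2 hx
    positivity
  have hs' : 0 < xp x y + xp x (-y) := by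
    have : 0 < 4 * (x + 2) * (x - 1) := by
      have : 0 < x - 1 := by linarith
      positivity
    rw [← hs] at this
    exact (pos_iff_pos_of_mul_pos this).2 h2
  have hp' : 0 < xp x y * xp x (-y) := by
    have : 0 < 4 * (x + 1) ^ 2 := by positivity
    rw [← hp] at this
    exact (pos_iff_pos_of_mul_pos this).2 h2
  by_contra hc
  push Not at hc
  have : 0 < xp x (-y) := by linarith
  nlinarith

theorem prime_dvd_two {p : ℤ} (hp : Prime p) (h : p ∣ 4) : p ∣ 2 := by
  have : p ∣ 2 * 2 := by simpa using h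
  rcases hp.dvd_or_dvd this with h | h <;> exact h

theorem odd_coprime_two {a : ℤ} (h : Odd a) : IsCoprime a 2 := by
  obtain ⟨k, rfl⟩ := h
  exact ⟨1, -k, by ring⟩

theorem xp_num_odd {x y : ℚ} (h : y ^ 2 = x ^ 3 - 2 * x) (hx : x ≠ 2) (ho : Odd x.num) :
    (xp x y).num * (xp x (-y)).num = 4 * (x.num + x.den) ^ 2 := by
  have hs := xp_add h hx
  have hp := xp_mul h hx
  have hu := mul_den_eq x
  have cu := x.isCoprime_num_den
  have pu : (0 : ℤ) < x.den := by exact_mod_cast x.den_pos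
  generalize x.num = a at *
  generalize (x.den : ℤ) = q at *
  have c2 := odd_coprime_two ho
  have hne : a - 2 * q ≠ 0 := by
    intro h0
    have : a = 2 * q := by linarith
    rw [this] at ho
    exact (Int.not_odd_iff_even.2 (even_two_mul q)) ho
  refine num_mul_num (w0 := (a - 2 * q) ^ 2) (w1 := 4 * (a + 2 * q) * (a - q)) (by positivity)
    ?_ ?_ ?_
  · intro p hp h1 h2 h3
    have h1 := hp.dvd_of_dvd_pow h1
    have n2 : ¬ p ∣ 2 := fun h => not_both c2 hp (by
      have : a = (a - 2 * q) + 2 * q := by ring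
      rw [this]
      exact dvd_add h1 (h.mul_right _)) h
    have nq : ¬ p ∣ q := fun h => not_both cu hp (by
      have : a = (a - 2 * q) + 2 * q := by ring
      rw [this]
      exact dvd_add h1 (h.mul_left _)) h
    rcases hp.dvd_or_dvd h2 with h2 | h2
    · rcases hp.dvd_or_dvd h2 with h2 | h2
      · exact n2 (prime_dvd_two hp h2)
      · have : p ∣ 4 * q := by
          have : 4 * q = (a + 2 * q) - (a - 2 * q) := by ring
          rw [this]
          exact dvd_sub h2 h1
        rcases hp.dvd_or_dvd this with h | h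
        · exact n2 (prime_dvd_two hp h)
        · exact nq h
    · apply nq
      have : q = (a - q) - (a - 2 * q) := by ring
      rw [this]
      exact dvd_sub h2 h1
  · push_cast
    rw [← hu]
    linear_combination (q : ℚ) ^ 2 * hs
  · push_cast
    rw [← hu]
    linear_combination (q : ℚ) ^ 2 * hp

theorem xp_num_even {x y : ℚ} (h : y ^ 2 = x ^ 3 - 2 * x) (hx : x ≠ 2) (he : Even x.num) :
    (xp x y).num * (xp x (-y)).num = (x.num + x.den) ^ 2 ∧ Odd (x.num + x.den) := by
  have hs := xp_add h hx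
  have hp := xp_mul h hx
  have hu := mul_den_eq x
  have cu := x.isCoprime_num_den
  have pu : (0 : ℤ) < x.den := by exact_mod_cast x.den_pos
  generalize x.num = a at *
  generalize (x.den : ℤ) = q at *
  obtain ⟨b, rfl⟩ := he
  have hq : Odd q := by
    rcases Int.even_or_odd q with ⟨k, hk⟩ | h
    · exact (not_both cu Int.prime_two ⟨b, by ring⟩ ⟨k, by rw [hk]; ring⟩).elim
    · exact h
  have c2 := odd_coprime_two hq
  have hne : b - q ≠ 0 := by
    intro h0
    have hb : b = q := by linarith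
    apply hx
    have hq0 : (q : ℚ) ≠ 0 := by exact_mod_cast pu.ne'
    rw [hb] at hu
    push_cast at hu
    apply mul_right_cancel₀ hq0
    linear_combination hu
  refine ⟨num_mul_num (w0 := (b - q) ^ 2) (w1 := 2 * (b + q) * (2 * b - q)) (by positivity)
    ?_ ?_ ?_, ?_⟩
  · intro p hp h1 h2 h3
    have h1 := hp.dvd_of_dvd_pow h1
    have h3 := hp.dvd_of_dvd_pow h3
    have n2 : ¬ p ∣ 2 := fun h => not_both c2 hp (by
      have : q = (b + b + q) - 2 * b := by ring
      rw [this]
      exact dvd_sub h3 (h.mul_right _)) h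
    have nq : ¬ p ∣ q := fun h => not_both cu hp (by
      have : b + b = (b + b + q) - q := by ring
      rw [this]
      exact dvd_sub h3 h) h
    rcases hp.dvd_or_dvd h2 with h2 | h2
    · rcases hp.dvd_or_dvd h2 with h2 | h2
      · exact n2 h2
      · have : p ∣ 2 * q := by
          have : 2 * q = (b + q) - (b - q) := by ring
          rw [this]
          exact dvd_sub h2 h1
        rcases hp.dvd_or_dvd this with h | h
        · exact n2 h
        · exact nq h
    · apply nq
      have : q = (2 * b - q) - 2 * (b - q) := by ring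
      rw [this]
      exact dvd_sub h2 (h1.mul_left _)
  · push_cast at hu ⊢
    have hb : (b : ℚ) = x * q / 2 := by linear_combination (-1 / 2) * hu
    rw [hb]
    linear_combination (q : ℚ) ^ 2 / 4 * hs
  · push_cast at hu ⊢
    have hb : (b : ℚ) = x * q / 2 := by linear_combination (-1 / 2) * hu
    rw [hb]
    linear_combination (q : ℚ) ^ 2 / 4 * hp
  · exact Even.add_odd ⟨b, rfl⟩ hq

theorem sq_sub_pos {x y : ℚ} (h : y ^ 2 = x ^ 3 - 2 * x) (h0 : 0 < x) :
    0 < x.num ^ 2 - 2 * (x.den : ℤ) ^ 2 := by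
  have hu := mul_den_eq x
  have cu := x.isCoprime_num_den
  have pu : (0 : ℤ) < x.den := by exact_mod_cast x.den_pos
  generalize x.num = a at *
  generalize (x.den : ℤ) = q at *
  have h1 : 0 ≤ x ^ 2 - 2 := by
    by_contra hc
    push Not at hc
    have : x * (x ^ 2 - 2) < 0 := mul_neg_of_pos_of_neg h0 hc
    nlinarith [sq_nonneg y]
  have h2 : 0 ≤ a ^ 2 - 2 * q ^ 2 := by
    have : (0 : ℚ) ≤ ((a ^ 2 - 2 * q ^ 2 : ℤ) : ℚ) := by
      push_cast
      rw [← hu]
      have : (x * q) ^ 2 - 2 * (q : ℚ) ^ 2 = (x ^ 2 - 2) * q ^ 2 := by ring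
      rw [this]
      positivity
    exact_mod_cast this
  refine lt_of_le_of_ne h2 fun h3 => ?_
  have h4 : (2 : ℤ) ∣ a := Int.prime_two.dvd_of_dvd_pow (n := 2) ⟨q ^ 2, by linarith⟩
  obtain ⟨b, rfl⟩ := h4
  have h5 : (2 : ℤ) ∣ q := Int.prime_two.dvd_of_dvd_pow (n := 2) ⟨b ^ 2, by linarith⟩
  exact not_both cu Int.prime_two (dvd_mul_right _ _) h5

theorem y_ne_zero {x y : ℚ} (h : y ^ 2 = x ^ 3 - 2 * x) (h0 : 0 < x) : y ≠ 0 := by
  rintro rfl
  have h1 := sq_sub_pos h h0
  have hu := mul_den_eq x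
  have h2 : x ^ 2 - 2 = 0 := by
    have : x * (x ^ 2 - 2) = 0 := by linear_combination -h
    rcases mul_eq_zero.1 this with h | h
    · exact absurd h h0.ne'
    · exact h
  have : ((x.num ^ 2 - 2 * (x.den : ℤ) ^ 2 : ℤ) : ℚ) = 0 := by
    rw [Int.cast_sub, Int.cast_mul, Int.cast_pow, Int.cast_pow, ← hu]
    push_cast
    linear_combination (x.den : ℚ) ^ 2 * h2
  have : x.num ^ 2 - 2 * (x.den : ℤ) ^ 2 = 0 := by exact_mod_cast this
  omega

/-- The numerator of the double of a point is large. -/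
theorem double_num {u v : ℚ} (h : v ^ 2 = u ^ 3 - 2 * u) (h0 : 0 < u) :
    u.num ^ 4 < 4 * (((u ^ 2 + 2) / (2 * v)) ^ 2).num := by
  have hv := y_ne_zero h h0
  have h1 := sq_sub_pos h h0
  have hx : ((u ^ 2 + 2) / (2 * v)) ^ 2 * (4 * (u ^ 3 - 2 * u)) = (u ^ 2 + 2) ^ 2 := by
    rw [← h]
    field_simp
    norm_num
  generalize ((u ^ 2 + 2) / (2 * v)) ^ 2 = x at *
  have hu := mul_den_eq u
  have cu := u.isCoprime_num_den
  have pu : (0 : ℤ) < u.den := by exact_mod_cast u.den_pos
  have pa : (0 : ℤ) < u.num := Rat.num_pos.2 h0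
  generalize u.num = a at *
  generalize (u.den : ℤ) = q at *
  rcases Int.even_or_odd a with ⟨b, rfl⟩ | ho
  · have hq : Odd q := by
      rcases Int.even_or_odd q with ⟨k, hk⟩ | h
      · exact (not_both cu Int.prime_two ⟨b, by ring⟩ ⟨k, by rw [hk]; ring⟩).elim
      · exact h
    have c2 := odd_coprime_two hq
    have pb : 0 < b := by omega
    have h2 : 0 < 2 * b ^ 2 - q ^ 2 := by nlinarith
    have : x.num = (2 * b ^ 2 + q ^ 2) ^ 2 := by
      refine num_eq_of (D := 4 * b * q * (2 * b ^ 2 - q ^ 2)) (by positivity) ?_ ?_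
      · refine isCoprime_of_prime_dvd (fun h => ?_) fun p hp h1 h2 => ?_
        · have : 0 < (2 * b ^ 2 + q ^ 2) ^ 2 := by positivity
          omega
        have h1 := hp.dvd_of_dvd_pow h1
        have n2 : ¬ p ∣ 2 := fun h => not_both c2 hp (hp.dvd_of_dvd_pow
          ((dvd_add_right (h.mul_right _)).1 h1)) h
        have nq : ¬ p ∣ q := fun h => by
          have : p ∣ 2 * b ^ 2 := (dvd_add_left (h.pow two_ne_zero)).1 h1
          rcases hp.dvd_or_dvd this with h' | h'
          · exact n2 h'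
          · have := hp.dvd_of_dvd_pow h'
            exact not_both cu hp (dvd_add this this) h
        have nb : ¬ p ∣ b := fun h => nq (hp.dvd_of_dvd_pow
          ((dvd_add_right ((h.pow two_ne_zero).mul_left _)).1 h1))
        rcases hp.dvd_or_dvd h2 with h2 | h2
        · rcases hp.dvd_or_dvd h2 with h2 | h2
          · rcases hp.dvd_or_dvd h2 with h2 | h2
            · exact n2 (prime_dvd_two hp h2)
            · exact nb h2
          · exact nq h2
        · have : p ∣ 2 * q ^ 2 := by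
            have : 2 * q ^ 2 = (2 * b ^ 2 + q ^ 2) - (2 * b ^ 2 - q ^ 2) := by ring
            rw [this]
            exact dvd_sub h1 h2
          rcases hp.dvd_or_dvd this with h | h
          · exact n2 h
          · exact nq (hp.dvd_of_dvd_pow h)
      · push_cast at hu ⊢
        have hb : (b : ℚ) = u * q / 2 := by linear_combination (-1 / 2) * hu
        rw [hb]
        linear_combination (q : ℚ) ^ 4 / 4 * hx
    rw [this]
    have : 0 < q ^ 2 := by positivity
    nlinarith [sq_nonneg (b ^ 2), sq_nonneg b]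
  · have c2 := odd_coprime_two ho
    have : x.num = (a ^ 2 + 2 * q ^ 2) ^ 2 := by
      refine num_eq_of (D := 4 * a * q * (a ^ 2 - 2 * q ^ 2)) (by positivity) ?_ ?_
      · refine isCoprime_of_prime_dvd (fun h => ?_) fun p hp h1 h2 => ?_
        · have : 0 < (a ^ 2 + 2 * q ^ 2) ^ 2 := by positivity
          omega
        have h1 := hp.dvd_of_dvd_pow h1
        have n2 : ¬ p ∣ 2 := fun h => not_both c2 hp (hp.dvd_of_dvd_pow
          ((dvd_add_left (h.mul_right _)).1 h1)) h
        have nq : ¬ p ∣ q := fun h => not_both cu hp (hp.dvd_of_dvd_pow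
          ((dvd_add_left ((h.pow two_ne_zero).mul_left _)).1 h1)) h
        have na : ¬ p ∣ a := fun h => by
          have : p ∣ 2 * q ^ 2 := (dvd_add_right (h.pow two_ne_zero)).1 h1
          rcases hp.dvd_or_dvd this with h' | h'
          · exact n2 h'
          · exact nq (hp.dvd_of_dvd_pow h')
        rcases hp.dvd_or_dvd h2 with h2 | h2
        · rcases hp.dvd_or_dvd h2 with h2 | h2
          · rcases hp.dvd_or_dvd h2 with h2 | h2
            · exact n2 (prime_dvd_two hp h2)
            · exact na h2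
          · exact nq h2
        · have : p ∣ 4 * q ^ 2 := by
            have : 4 * q ^ 2 = (a ^ 2 + 2 * q ^ 2) - (a ^ 2 - 2 * q ^ 2) := by ring
            rw [this]
            exact dvd_sub h1 h2
          rcases hp.dvd_or_dvd this with h | h
          · exact n2 (prime_dvd_two hp h)
          · exact nq (hp.dvd_of_dvd_pow h)
      · push_cast
        rw [← hu]
        linear_combination (q : ℚ) ^ 4 * hx
    rw [this]
    have : 0 < q ^ 2 := by positivity
    nlinarith [sq_nonneg (a ^ 2), sq_nonneg a]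

theorem exists_pos_sq {a b c : ℤ} (h : IsCoprime a b) (ha : 0 < a) (e : a * b = c ^ 2) :
    ∃ k : ℤ, 0 < k ∧ a = k ^ 2 := by
  obtain ⟨k, hk | hk⟩ := Int.sq_of_isCoprime h e
  · refine ⟨|k|, abs_pos.2 ?_, by rw [sq_abs, hk]⟩
    rintro rfl
    simp [hk] at ha
  · nlinarith [sq_nonneg k]

/-- `y * den ^ 2` is an integer. -/
theorem exists_int_y {x y : ℚ} (h : y ^ 2 = x ^ 3 - 2 * x) :
    ∃ r : ℤ, y * (x.den : ℚ) ^ 2 = r ∧
      r ^ 2 = x.num * x.den * (x.num ^ 2 - 2 * (x.den : ℤ) ^ 2) := by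
  have hu := mul_den_eq x
  have e : (y * (x.den : ℚ) ^ 2) ^ 2 =
      ((x.num * x.den * (x.num ^ 2 - 2 * (x.den : ℤ) ^ 2) : ℤ) : ℚ) := by
    rw [Int.cast_mul, Int.cast_mul, Int.cast_sub, Int.cast_mul, Int.cast_pow, Int.cast_pow, ← hu]
    push_cast
    linear_combination (x.den : ℚ) ^ 4 * h
  obtain ⟨r, hr⟩ := Rat.isSquare_intCast_iff.1 ⟨_, by rw [← e, sq]⟩
  rw [hr] at e ⊢
  push_cast at e
  rw [← sq, sq_eq_sq_iff_eq_or_eq_neg] at e
  rcases e with e | e
  · exact ⟨r, e, by ring⟩
  · exact ⟨-r, by push_cast; exact e, by ring⟩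

theorem half_aux {M N d : ℤ} (hM : 0 < M) (hd : 0 < d) (hMN : IsCoprime M N)
    (h : N ^ 2 = M ^ 4 - 2 * d ^ 4) {A B : ℤ} (hA : 2 * A = M ^ 2 + N) (hB : 2 * B = M ^ 2 - N)
    (ho : Odd A) : ∃ k : ℤ, 0 < k ∧ 2 * k ^ 2 = M ^ 2 + N := by
  have hAB : IsCoprime A B := by
    obtain ⟨u, v, huv⟩ := (IsCoprime.pow_left (m := 2) hMN)
    refine ⟨u + v, u - v, ?_⟩
    have e1 : M ^ 2 = A + B := by linarith
    have e2 : N = A - B := by linarith
    rw [e1, e2] at huv
    linear_combination huv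
  have h2 : IsCoprime A (2 * B) := (odd_coprime_two ho).mul_right hAB
  have h3 : A * (2 * B) = (d ^ 2) ^ 2 := by
    have : 2 * (A * (2 * B)) = 2 * (d ^ 2) ^ 2 := by
      linear_combination (2 * B) * hA + (M ^ 2 + N) * hB - h
    linarith
  have hApos : 0 < A := by
    have : 0 < d ^ 4 := by positivity
    have h4 : 0 < M ^ 2 := by positivity
    by_contra hc
    push Not at hc
    nlinarith
  obtain ⟨k, hk, e⟩ := exists_pos_sq h2 hApos h3
  exact ⟨k, hk, by rw [← e, hA]⟩

/-- A point with positive `x`-coordinate of odd numerator is a double. -/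
theorem exists_half {x y : ℚ} (h : y ^ 2 = x ^ 3 - 2 * x) (h0 : 0 < x) (ho : Odd x.num) :
    ∃ u v : ℚ, 0 < u ∧ v ^ 2 = u ^ 3 - 2 * u ∧ ((u ^ 2 + 2) / (2 * v)) ^ 2 = x := by
  obtain ⟨r, -, hr⟩ := exists_int_y h
  have h1 := sq_sub_pos h h0
  have hu := mul_den_eq x
  have cu := x.isCoprime_num_den
  have pu : (0 : ℤ) < x.den := by exact_mod_cast x.den_pos
  have pa : (0 : ℤ) < x.num := Rat.num_pos.2 h0
  generalize x.num = a at *
  generalize (x.den : ℤ) = q at *
  have c2 := odd_coprime_two ho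
  have c3 : IsCoprime a (a ^ 2 - 2 * q ^ 2) := by
    have : IsCoprime a (-(2 * q ^ 2)) := (c2.mul_right cu.pow_right).neg_right
    have := this.add_mul_left_right a
    rwa [show -(2 * q ^ 2) + a * a = a ^ 2 - 2 * q ^ 2 by ring] at this
  have c4 : IsCoprime q (a ^ 2 - 2 * q ^ 2) := by
    have : IsCoprime q (a ^ 2) := cu.symm.pow_right
    have := this.add_mul_left_right (-2 * q)
    rwa [show a ^ 2 + q * (-2 * q) = a ^ 2 - 2 * q ^ 2 by ring] at this
  obtain ⟨M, hM, rfl⟩ := exists_pos_sq (c := r) (cu.mul_right c3) pa (by linear_combination -hr)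
  obtain ⟨d, hd, rfl⟩ := exists_pos_sq (c := r) (cu.symm.mul_right c4) pu
    (by linear_combination -hr)
  obtain ⟨N, hN, eN⟩ := exists_pos_sq (c := r) (c3.symm.mul_right c4.symm) h1
    (by linear_combination -hr)
  have hMN : IsCoprime M N := by
    rw [eN] at c3
    exact (IsCoprime.pow_iff two_pos two_pos).1 c3
  have oN : Odd N := by
    have : Odd (N ^ 2) := by
      rw [← eN]
      exact Odd.sub_even ho.pow ⟨(d ^ 2) ^ 2, by ring⟩
    exact (Int.odd_pow' two_ne_zero).1 this
  obtain ⟨A, hA⟩ := ho.add_odd oN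
  obtain ⟨B, hB⟩ := ho.sub_odd oN
  have key : ∃ n k : ℤ, n ^ 2 = M ^ 4 - 2 * d ^ 4 ∧ 0 < k ∧ 2 * k ^ 2 = M ^ 2 + n := by
    rcases Int.even_or_odd A with hAe | hAo
    · have hBo : Odd B := by
        have : B = M ^ 2 - A := by linarith
        rw [this]
        exact ho.sub_even hAe
      obtain ⟨k, hk, e⟩ := half_aux (N := -N) (A := B) (B := A) hM hd hMN.neg_right
        (by linear_combination -eN) (by linarith) (by linarith) hBo
      exact ⟨-N, k, by linear_combination -eN, hk, e⟩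
    · obtain ⟨k, hk, e⟩ := half_aux (N := N) (A := A) (B := B) hM hd hMN
        (by linear_combination -eN) (by linarith) (by linarith) hAo
      exact ⟨N, k, by linear_combination -eN, hk, e⟩
  obtain ⟨n, k, hn, hk, e⟩ := key
  have hd' : (0 : ℚ) < d := by exact_mod_cast hd
  have hM' : (0 : ℚ) < M := by exact_mod_cast hM
  have hk' : (0 : ℚ) < k := by exact_mod_cast hk
  have hn' : (n : ℚ) ^ 2 = M ^ 4 - 2 * d ^ 4 := by exact_mod_cast hn
  have e' : 2 * (k : ℚ) ^ 2 = M ^ 2 + n := by exact_mod_cast e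
  push_cast at hu
  set s : ℚ := 2 * k / d with hs
  set t : ℚ := M / d with ht
  have hs0 : 0 < s := by positivity
  have ht0 : 0 < t := by positivity
  have hx : x = t ^ 2 := by
    rw [ht]
    field_simp
    linear_combination hu
  have hst : s ^ 4 + 8 = 4 * t ^ 2 * s ^ 2 := by
    rw [hs, ht]
    field_simp
    have : (n : ℚ) = 2 * k ^ 2 - M ^ 2 := by linarith
    rw [this] at hn'
    linear_combination 4 * hn'
  refine ⟨s * (s + 2 * t) / 2, s * (s * (s + 2 * t) / 2), by positivity, ?_, ?_⟩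
  · linear_combination (s * (s + 2 * t) / 8) * hst
  · rw [hx]
    congr 1
    field_simp
    linear_combination hst

end Crest.Agent.R323
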