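import Mathlib

/-!
Single-fold Diophantine relations: the basic closure properties.
-/

set_option autoImplicit false

namespace Crest.Agent.R323

open MvPolynomial

/-- Integer polynomial functions of natural-number variables. -/
def IsPoly {ι : Type} (F : (ι → ℕ) → ℤ) : Prop :=
  ∃ P : MvPolynomial ι ℤ, ∀ v : ι → ℕ, F v = eval (fun i => (v i : ℤ)) P

namespace IsPoly

variable {ι ι' : Type} {F G : (ι → ℕ) → ℤ}

theorem const (c : ℤ) : IsPoly (fun _ : ι → ℕ => c) := ⟨C c, fun v => by simp⟩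

theorem proj (i : ι) : IsPoly (fun v : ι → ℕ => (v i : ℤ)) := ⟨X i, fun v => by simp⟩

theorem add (hF : IsPoly F) (hG : IsPoly G) : IsPoly (fun v => F v + G v) := by
  obtain ⟨P, hP⟩ := hF
  obtain ⟨Q, hQ⟩ := hG
  exact ⟨P + Q, fun v => by simp [hP, hQ]⟩

theorem sub (hF : IsPoly F) (hG : IsPoly G) : IsPoly (fun v => F v - G v) := by
  obtain ⟨P, hP⟩ := hF
  obtain ⟨Q, hQ⟩ := hG
  exact ⟨P - Q, fun v => by simp [hP, hQ]⟩

theorem mul (hF : IsPoly F) (hG : IsPoly G) : IsPoly (fun v => F v * G v) := by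
  obtain ⟨P, hP⟩ := hF
  obtain ⟨Q, hQ⟩ := hG
  exact ⟨P * Q, fun v => by simp [hP, hQ]⟩

theorem pow (hF : IsPoly F) (n : ℕ) : IsPoly (fun v => F v ^ n) := by
  obtain ⟨P, hP⟩ := hF
  exact ⟨P ^ n, fun v => by simp [hP]⟩

theorem sum {κ : Type} (s : Finset κ) {F : κ → (ι → ℕ) → ℤ} (hF : ∀ k, IsPoly (F k)) :
    IsPoly (fun v => ∑ k ∈ s, F k v) := by
  choose P hP using hF
  exact ⟨∑ k ∈ s, P k, fun v => by simp [hP]⟩

theorem rename (hF : IsPoly F) (e : ι → ι') : IsPoly (fun v : ι' → ℕ => F (fun i => v (e i))) := by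
  obtain ⟨P, hP⟩ := hF
  refine ⟨MvPolynomial.rename e P, fun v => ?_⟩
  beta_reduce
  rw [hP, eval_rename]
  rfl

end IsPoly

/-- Single-fold Diophantine relations. -/
def SF {ι : Type} (S : (ι → ℕ) → Prop) : Prop :=
  ∃ (κ : Type) (_ : Fintype κ) (F : (ι ⊕ κ → ℕ) → ℤ), IsPoly F ∧
    (∀ a, S a ↔ ∃ w : κ → ℕ, F (Sum.elim a w) = 0) ∧
    (∀ a w w', F (Sum.elim a w) = 0 → F (Sum.elim a w') = 0 → w = w')

namespace SF

variable {ι ι' : Type} {S T : (ι → ℕ) → Prop}

theorem congr (h : SF S) (hST : ∀ a, S a ↔ T a) : SF T := by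
  have : S = T := funext fun a => propext (hST a)
  rwa [← this]

theorem of_poly {F : (ι → ℕ) → ℤ} (hF : IsPoly F) : SF (fun a => F a = 0) := by
  refine ⟨Empty, inferInstance, fun v => F (fun i => v (Sum.inl i)), hF.rename _, ?_, ?_⟩
  · intro a
    exact ⟨fun h => ⟨fun e => e.elim, h⟩, fun ⟨_, h⟩ => h⟩
  · intro a w w' _ _
    exact Subsingleton.elim _ _

theorem rename (h : SF S) (e : ι → ι') : SF (fun v : ι' → ℕ => S (fun i => v (e i))) := by
  obtain ⟨κ, _, F, hF, h1, h2⟩ := h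
  have key : ∀ (a : ι' → ℕ) (w : κ → ℕ),
      (fun i => Sum.elim a w (Sum.map e id i)) = Sum.elim (fun i => a (e i)) w := by
    intro a w
    funext i
    cases i <;> rfl
  refine ⟨κ, inferInstance, fun v => F (fun i => v (Sum.map e id i)), hF.rename _, ?_, ?_⟩
  · intro a
    simp only [key]
    exact h1 _
  · intro a w w'
    simp only [key]
    exact h2 _ _ _

theorem and (hS : SF S) (hT : SF T) : SF (fun a => S a ∧ T a) := by
  obtain ⟨κ, _, F, hF, h1, h2⟩ := hS
  obtain ⟨κ', _, G, hG, g1, g2⟩ := hT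
  have k1 : ∀ (a : ι → ℕ) (w : κ ⊕ κ' → ℕ),
      (fun i => Sum.elim a w (Sum.map id Sum.inl i)) = Sum.elim a (fun k => w (Sum.inl k)) := by
    intro a w
    funext i
    cases i <;> rfl
  have k2 : ∀ (a : ι → ℕ) (w : κ ⊕ κ' → ℕ),
      (fun i => Sum.elim a w (Sum.map id Sum.inr i)) = Sum.elim a (fun k => w (Sum.inr k)) := by
    intro a w
    funext i
    cases i <;> rfl
  have k3 : ∀ x y : ℤ, x ^ 2 + y ^ 2 = 0 ↔ x = 0 ∧ y = 0 := by
    intro x y
    constructor
    · intro h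
      constructor <;> nlinarith [sq_nonneg x, sq_nonneg y]
    · rintro ⟨rfl, rfl⟩
      simp
  refine ⟨κ ⊕ κ', inferInstance, fun v => F (fun i => v (Sum.map id Sum.inl i)) ^ 2 +
    G (fun i => v (Sum.map id Sum.inr i)) ^ 2,
    ((hF.rename _).pow 2).add ((hG.rename _).pow 2), ?_, ?_⟩
  · intro a
    simp only [k1, k2, k3, h1, g1]
    constructor
    · rintro ⟨⟨w, hw⟩, ⟨w', hw'⟩⟩
      exact ⟨Sum.elim w w', hw, hw'⟩
    · rintro ⟨w, hw, hw'⟩
      exact ⟨⟨_, hw⟩, ⟨_, hw'⟩⟩
  · intro a w w'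
    simp only [k1, k2, k3]
    rintro ⟨p1, p2⟩ ⟨q1, q2⟩
    have e1 := h2 _ _ _ p1 q1
    have e2 := g2 _ _ _ p2 q2
    funext k
    cases k with
    | inl k => exact congrFun e1 k
    | inr k => exact congrFun e2 k

theorem or (hS : SF S) (hT : SF T) (hd : ∀ a, S a → T a → False) : SF (fun a => S a ∨ T a) := by
  obtain ⟨κ, _, F, hF, h1, h2⟩ := hS
  obtain ⟨κ', _, G, hG, g1, g2⟩ := hT
  have k1 : ∀ (a : ι → ℕ) (w : κ ⊕ κ' → ℕ),
      (fun i => Sum.elim a w (Sum.map id Sum.inl i)) = Sum.elim a (fun k => w (Sum.inl k)) := by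
    intro a w
    funext i
    cases i <;> rfl
  have k2 : ∀ (a : ι → ℕ) (w : κ ⊕ κ' → ℕ),
      (fun i => Sum.elim a w (Sum.map id Sum.inr i)) = Sum.elim a (fun k => w (Sum.inr k)) := by
    intro a w
    funext i
    cases i <;> rfl
  have k3 : ∀ {μ : Type} [Fintype μ] (x : ℤ) (u : μ → ℕ),
      x ^ 2 + ∑ k, (u k : ℤ) = 0 ↔ x = 0 ∧ u = 0 := by
    intro μ _ x u
    have hu : (0 : ℤ) ≤ ∑ k, (u k : ℤ) := Finset.sum_nonneg fun _ _ => Int.natCast_nonneg _
    constructor
    · intro h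
      have hx : x = 0 := by nlinarith [sq_nonneg x]
      refine ⟨hx, ?_⟩
      have h0 : ∑ k, (u k : ℤ) = 0 := by nlinarith [sq_nonneg x]
      rw [Finset.sum_eq_zero_iff_of_nonneg (fun _ _ => Int.natCast_nonneg _)] at h0
      funext k
      simpa using h0 k (Finset.mem_univ _)
    · rintro ⟨rfl, rfl⟩
      simp
  refine ⟨κ ⊕ κ', inferInstance, fun v =>
    (F (fun i => v (Sum.map id Sum.inl i)) ^ 2 + ∑ k : κ', (v (Sum.inr (Sum.inr k)) : ℤ)) *
    (G (fun i => v (Sum.map id Sum.inr i)) ^ 2 + ∑ k : κ, (v (Sum.inr (Sum.inl k)) : ℤ)),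
    (((hF.rename _).pow 2).add (IsPoly.sum _ fun k => IsPoly.proj _)).mul
      (((hG.rename _).pow 2).add (IsPoly.sum _ fun k => IsPoly.proj _)), ?_, ?_⟩
  · intro a
    simp only [k1, k2, mul_eq_zero, Sum.elim_inr, k3, h1, g1]
    constructor
    · rintro (⟨w, hw⟩ | ⟨w, hw⟩)
      · exact ⟨Sum.elim w 0, Or.inl ⟨hw, rfl⟩⟩
      · exact ⟨Sum.elim 0 w, Or.inr ⟨hw, rfl⟩⟩
    · rintro ⟨w, ⟨hw, _⟩ | ⟨hw, _⟩⟩
      · exact Or.inl ⟨_, hw⟩
      · exact Or.inr ⟨_, hw⟩
  · intro a w w'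
    simp only [k1, k2, mul_eq_zero, Sum.elim_inr, k3]
    rintro (⟨p1, p2⟩ | ⟨p1, p2⟩) (⟨q1, q2⟩ | ⟨q1, q2⟩)
    · have e1 := h2 _ _ _ p1 q1
      funext k
      cases k with
      | inl k => exact congrFun e1 k
      | inr k => exact (congrFun p2 k).trans (congrFun q2 k).symm
    · exact (hd a ((h1 a).2 ⟨_, p1⟩) ((g1 a).2 ⟨_, q1⟩)).elim
    · exact (hd a ((h1 a).2 ⟨_, q1⟩) ((g1 a).2 ⟨_, p1⟩)).elim
    · have e1 := g2 _ _ _ p1 q1
      funext k
      cases k with
      | inl k => exact (congrFun p2 k).trans (congrFun q2 k).symm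
      | inr k => exact congrFun e1 k

theorem ex_vec {μ : Type} [Fintype μ] {R : (ι ⊕ μ → ℕ) → Prop} (hR : SF R)
    (hu : ∀ a w w', R (Sum.elim a w) → R (Sum.elim a w') → w = w') :
    SF (fun a => ∃ w : μ → ℕ, R (Sum.elim a w)) := by
  obtain ⟨κ, _, F, hF, h1, h2⟩ := hR
  have k1 : ∀ (a : ι → ℕ) (w : μ ⊕ κ → ℕ),
      (fun i => Sum.elim a w (Equiv.sumAssoc ι μ κ i)) =
        Sum.elim (Sum.elim a (fun k => w (Sum.inl k))) (fun k => w (Sum.inr k)) := by
    intro a w
    funext i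
    rcases i with (i | i) | i <;> rfl
  refine ⟨μ ⊕ κ, inferInstance, fun v => F (fun i => v (Equiv.sumAssoc ι μ κ i)),
    hF.rename _, ?_, ?_⟩
  · intro a
    simp only [k1, h1]
    constructor
    · rintro ⟨w, w', hw⟩
      exact ⟨Sum.elim w w', hw⟩
    · rintro ⟨w, hw⟩
      exact ⟨_, _, hw⟩
  · intro a w w'
    simp only [k1]
    intro p q
    have e1 := hu _ _ _ ((h1 _).2 ⟨_, p⟩) ((h1 _).2 ⟨_, q⟩)
    rw [e1] at p
    have e2 := h2 _ _ _ p q
    funext k
    cases k with
    | inl k => exact congrFun e1 k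
    | inr k => exact congrFun e2 k

theorem ex {R : (ι → ℕ) → ℕ → Prop}
    (hR : SF (fun v : Option ι → ℕ => R (fun i => v (some i)) (v none)))
    (hu : ∀ a x y, R a x → R a y → x = y) : SF (fun a => ∃ x, R a x) := by
  have h1 := hR.rename (ι' := ι ⊕ Unit) (fun o => o.elim (Sum.inr ()) Sum.inl)
  have h2 := ex_vec h1 (by
    intro a w w' p q
    funext u
    exact hu a _ _ p q)
  refine h2.congr fun a => ⟨fun ⟨w, hw⟩ => ⟨_, hw⟩, fun ⟨x, hx⟩ => ⟨fun _ => x, hx⟩⟩

theorem top : SF (fun _ : ι → ℕ => True) :=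
  (of_poly (IsPoly.const 0)).congr fun _ => by simp

theorem bot : SF (fun _ : ι → ℕ => False) :=
  (of_poly (IsPoly.const 1)).congr fun _ => by simp

theorem all_finset {μ : Type} (s : Finset μ) {S : μ → (ι → ℕ) → Prop} (hS : ∀ k, SF (S k)) :
    SF (fun a => ∀ k ∈ s, S k a) := by
  classical
  induction s using Finset.induction_on with
  | empty => exact SF.top.congr fun _ => by simp
  | insert k s _ ih => exact ((hS k).and ih).congr fun _ => by simp

theorem all_fin {μ : Type} [Fintype μ] {S : μ → (ι → ℕ) → Prop} (hS : ∀ k, SF (S k)) :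
    SF (fun a => ∀ k, S k a) :=
  (all_finset Finset.univ hS).congr fun _ => by simp

end SF

/-- Natural-number valued functions with a single-fold Diophantine graph. -/
def SFN {ι : Type} (f : (ι → ℕ) → ℕ) : Prop :=
  SF (fun v : Option ι → ℕ => v none = f (fun i => v (some i)))

theorem SF.subst {ι ι' : Type} [Fintype ι'] {S : (ι' → ℕ) → Prop} (hS : SF S)
    {f : ι' → (ι → ℕ) → ℕ} (hf : ∀ j, SFN (f j)) : SF (fun a => S (fun j => f j a)) := by
  have h1 : SF (fun v : ι ⊕ ι' → ℕ =>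
      (∀ j, v (Sum.inr j) = f j (fun i => v (Sum.inl i))) ∧ S (fun j => v (Sum.inr j))) := by
    refine SF.and (SF.all_fin fun j => ?_) (hS.rename _)
    exact SF.rename (hf j) (fun o => o.elim (Sum.inr j) Sum.inl)
  refine (h1.ex_vec ?_).congr ?_
  · rintro a w w' ⟨p, _⟩ ⟨q, _⟩
    funext j
    exact (p j).trans (q j).symm
  · intro a
    constructor
    · rintro ⟨w, p, q⟩
      have : (fun j => f j a) = w := funext fun j => (p j).symm
      rw [this]
      exact q
    · intro h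
      exact ⟨fun j => f j a, fun _ => rfl, h⟩

namespace SFN

variable {ι ι' : Type} {f g : (ι → ℕ) → ℕ}

theorem congr (h : SFN f) (hfg : ∀ a, f a = g a) : SFN g := by
  have : f = g := funext hfg
  rwa [← this]

theorem rename (h : SFN f) (e : ι → ι') : SFN (fun v : ι' → ℕ => f (fun i => v (e i))) :=
  SF.rename h (Option.map e)

theorem of_poly {F : (ι → ℕ) → ℤ} (hF : IsPoly F) (h : ∀ a, (f a : ℤ) = F a) : SFN f := by
  refine (SF.of_poly ((IsPoly.proj none).sub (hF.rename some))).congr fun v => ?_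
  rw [← h, sub_eq_zero, Nat.cast_inj]

theorem const (c : ℕ) : SFN (fun _ : ι → ℕ => c) := of_poly (IsPoly.const c) fun _ => rfl

theorem proj (i : ι) : SFN (fun v : ι → ℕ => v i) := of_poly (IsPoly.proj i) fun _ => rfl

theorem comp [Fintype ι'] {h : (ι' → ℕ) → ℕ} (hh : SFN h) {f : ι' → (ι → ℕ) → ℕ}
    (hf : ∀ j, SFN (f j)) : SFN (fun a => h (fun j => f j a)) := by
  have := SF.subst (ι := Option ι) hh
    (f := fun o => o.elim (fun v => v none) (fun j v => f j (fun i => v (some i)))) (by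
      rintro (_ | j)
      · exact proj none
      · exact (hf j).rename some)
  exact this

theorem comp₁ {h : ℕ → ℕ} (hh : SFN (fun v : Unit → ℕ => h (v ()))) (hf : SFN f) :
    SFN (fun a => h (f a)) :=
  hh.comp (f := fun _ => f) fun _ => hf

theorem comp₂ {h : ℕ → ℕ → ℕ} (hh : SFN (fun v : Bool → ℕ => h (v false) (v true)))
    (hf : SFN f) (hg : SFN g) : SFN (fun a => h (f a) (g a)) :=
  hh.comp (f := fun b => cond b g f) (by rintro (_ | _) <;> assumption)

theorem add (hf : SFN f) (hg : SFN g) : SFN (fun a => f a + g a) :=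
  comp₂ (h := fun x y => x + y)
    (of_poly ((IsPoly.proj false).add (IsPoly.proj true)) fun _ => by simp) hf hg

theorem mul (hf : SFN f) (hg : SFN g) : SFN (fun a => f a * g a) :=
  comp₂ (h := fun x y => x * y)
    (of_poly ((IsPoly.proj false).mul (IsPoly.proj true)) fun _ => by simp) hf hg

theorem npow (hf : SFN f) (n : ℕ) : SFN (fun a => f a ^ n) :=
  comp₁ (h := fun x => x ^ n) (of_poly ((IsPoly.proj ()).pow n) fun _ => by simp) hf

theorem sum {κ : Type} (s : Finset κ) {f : κ → (ι → ℕ) → ℕ} (hf : ∀ k, SFN (f k)) :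
    SFN (fun a => ∑ k ∈ s, f k a) := by
  classical
  induction s using Finset.induction_on with
  | empty => exact (const 0).congr fun _ => by simp
  | insert k s hk ih => exact ((hf k).add ih).congr fun _ => by simp [Finset.sum_insert hk]

theorem prod {κ : Type} (s : Finset κ) {f : κ → (ι → ℕ) → ℕ} (hf : ∀ k, SFN (f k)) :
    SFN (fun a => ∏ k ∈ s, f k a) := by
  classical
  induction s using Finset.induction_on with
  | empty => exact (const 1).congr fun _ => by simp
  | insert k s hk ih => exact ((hf k).mul ih).congr fun _ => by simp [Finset.prod_insert hk]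

end SFN

namespace SF

variable {ι : Type} {f g : (ι → ℕ) → ℕ}

theorem subst₂ {R : ℕ → ℕ → Prop} (hR : SF (fun v : Bool → ℕ => R (v false) (v true)))
    (hf : SFN f) (hg : SFN g) : SF (fun a => R (f a) (g a)) :=
  hR.subst (f := fun b => cond b g f) (by rintro (_ | _) <;> assumption)

theorem eq (hf : SFN f) (hg : SFN g) : SF (fun a => f a = g a) :=
  subst₂ (R := fun x y => x = y)
    ((of_poly ((IsPoly.proj false).sub (IsPoly.proj true))).congr fun _ => by
      rw [sub_eq_zero, Nat.cast_inj]) hf hg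

theorem le (hf : SFN f) (hg : SFN g) : SF (fun a => f a ≤ g a) := by
  have : SF (fun a => ∃ x, f a + x = g a) :=
    SF.ex (SF.eq ((hf.rename _).add (SFN.proj _)) (hg.rename _)) fun a x y p q => by omega
  exact this.congr fun a => ⟨fun ⟨x, hx⟩ => by omega, fun h => ⟨g a - f a, by omega⟩⟩

theorem lt (hf : SFN f) (hg : SFN g) : SF (fun a => f a < g a) :=
  SF.le (hf.add (SFN.const 1)) hg

theorem ne (hf : SFN f) (hg : SFN g) : SF (fun a => f a ≠ g a) :=
  ((SF.lt hf hg).or (SF.lt hg hf) fun a p q => by omega).congr fun a => by omega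

end SF

namespace SFN

variable {ι : Type} {f g : (ι → ℕ) → ℕ}

theorem sub (hf : SFN f) (hg : SFN g) : SFN (fun a => f a - g a) := by
  have : SF (fun v : Option ι → ℕ => (v none + g (fun i => v (some i)) = f (fun i => v (some i))) ∨
      (v none = 0 ∧ f (fun i => v (some i)) < g (fun i => v (some i)))) :=
    (SF.eq ((proj _).add (hg.rename _)) (hf.rename _)).or
      ((SF.eq (proj _) (const 0)).and (SF.lt (hf.rename _) (hg.rename _))) fun a p q => by omega
  exact this.congr fun a => by beta_reduce; omega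

theorem div (hf : SFN f) (hg : SFN g) : SFN (fun a => f a / g a) := by
  have : SF (fun v : Option ι → ℕ => (g (fun i => v (some i)) = 0 ∧ v none = 0) ∨
      (v none * g (fun i => v (some i)) ≤ f (fun i => v (some i)) ∧
        f (fun i => v (some i)) < (v none + 1) * g (fun i => v (some i)))) :=
    ((SF.eq (hg.rename _) (const 0)).and (SF.eq (proj _) (const 0))).or
      ((SF.le ((proj _).mul (hg.rename _)) (hf.rename _)).and
        (SF.lt (hf.rename _) (((proj _).add (const 1)).mul (hg.rename _)))) fun a p q => by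
          rw [p.1] at q
          simp at q
  refine this.congr fun a => ?_
  beta_reduce
  generalize f (fun i => a (some i)) = x
  generalize g (fun i => a (some i)) = y
  generalize a none = z
  rcases Nat.eq_zero_or_pos y with rfl | hy
  · simp
  · rw [eq_comm (a := z) (b := x / y), Nat.div_eq_iff hy]
    constructor
    · rintro (⟨h, _⟩ | ⟨h1, h2⟩)
      · omega
      · refine ⟨h1, ?_⟩
        rw [add_mul] at h2
        omega
    · rintro ⟨h1, h2⟩
      refine Or.inr ⟨h1, ?_⟩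
      rw [add_mul]
      omega

theorem mod (hf : SFN f) (hg : SFN g) : SFN (fun a => f a % g a) :=
  (hf.sub (hg.mul (hf.div hg))).congr fun _ => (Nat.mod_def _ _).symm

theorem ite {S : (ι → ℕ) → Prop} [DecidablePred S] (hS : SF S) (hS' : SF fun a => ¬ S a)
    (hf : SFN f) (hg : SFN g) : SFN (fun a => if S a then f a else g a) := by
  have : SF (fun v : Option ι → ℕ => (S (fun i => v (some i)) ∧ v none = f (fun i => v (some i))) ∨
      (¬ S (fun i => v (some i)) ∧ v none = g (fun i => v (some i)))) :=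
    ((hS.rename _).and hf).or ((hS'.rename _).and hg) fun a p q => q.1 p.1
  refine this.congr fun a => ?_
  by_cases h : S (fun i => a (some i)) <;> simp [h]

end SFN

theorem SF.coprime {ι : Type} {f g : (ι → ℕ) → ℕ} (hf : SFN f) (hg : SFN g) :
    SF (fun a => Nat.Coprime (f a) (g a)) := by
  have h1 : SF (fun a => ∃ u, u < g a ∧ (f a * u) % g a = 1 % g a) := by
    refine SF.ex ((SF.lt (SFN.proj _) (hg.rename _)).and
      (SF.eq (((hf.rename _).mul (SFN.proj _)).mod (hg.rename _))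
        ((SFN.const 1).mod (hg.rename _)))) ?_
    rintro a x y ⟨p1, p2⟩ ⟨q1, q2⟩
    have hc : Nat.Coprime (f a) (g a) :=
      Nat.coprime_of_mul_modEq_one x p2
    have : f a * x ≡ f a * y [MOD g a] := p2.trans q2.symm
    have := Nat.ModEq.cancel_left_of_coprime hc.symm this
    exact Nat.ModEq.eq_of_lt_of_lt this p1 q1
  have h2 := ((SF.eq hg (SFN.const 0)).and (SF.eq hf (SFN.const 1))).or h1 (by
    rintro a ⟨p, _⟩ ⟨u, q, _⟩
    omega)
  refine h2.congr fun a => ?_
  constructor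
  · rintro (⟨p, q⟩ | ⟨u, _, q⟩)
    · rw [p, q]
      simp
    · exact Nat.coprime_of_mul_modEq_one u q
  · intro h
    rcases Nat.eq_zero_or_pos (g a) with h0 | h0
    · left
      rw [h0] at h
      exact ⟨h0, by simpa using h⟩
    · right
      obtain ⟨u, hu1, hu2⟩ := Nat.exists_mul_mod_eq_of_coprime 1 h h0.ne'
      exact ⟨u, hu1, hu2⟩

theorem SFN.gcd {ι : Type} {f g : (ι → ℕ) → ℕ} (hf : SFN f) (hg : SFN g) :
    SFN (fun a => Nat.gcd (f a) (g a)) := by
  have : SF (fun v : Option ι → ℕ =>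
      (f (fun i => v (some i)) = 0 ∧ g (fun i => v (some i)) = 0 ∧ v none = 0) ∨
      (0 < v none ∧ f (fun i => v (some i)) % v none = 0 ∧ g (fun i => v (some i)) % v none = 0 ∧
        Nat.Coprime (f (fun i => v (some i)) / v none) (g (fun i => v (some i)) / v none))) :=
    ((SF.eq (hf.rename _) (SFN.const 0)).and ((SF.eq (hg.rename _) (SFN.const 0)).and
      (SF.eq (SFN.proj _) (SFN.const 0)))).or
      ((SF.lt (SFN.const 0) (SFN.proj _)).and
        ((SF.eq ((hf.rename _).mod (SFN.proj _)) (SFN.const 0)).and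
          ((SF.eq ((hg.rename _).mod (SFN.proj _)) (SFN.const 0)).and
            (SF.coprime ((hf.rename _).div (SFN.proj _)) ((hg.rename _).div (SFN.proj _))))))
      fun a p q => by omega
  refine this.congr fun a => ?_
  beta_reduce
  generalize f (fun i => a (some i)) = x
  generalize g (fun i => a (some i)) = y
  generalize a none = z
  constructor
  · rintro (⟨rfl, rfl, rfl⟩ | ⟨h0, h1, h2, h3⟩)
    · simp
    · obtain ⟨x, rfl⟩ := Nat.dvd_of_mod_eq_zero h1
      obtain ⟨y, rfl⟩ := Nat.dvd_of_mod_eq_zero h2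
      rw [Nat.mul_div_cancel_left _ h0, Nat.mul_div_cancel_left _ h0] at h3
      rw [Nat.gcd_mul_left, h3.gcd_eq_one, mul_one]
  · rintro rfl
    rcases Nat.eq_zero_or_pos (Nat.gcd x y) with h0 | h0
    · left
      exact ⟨Nat.eq_zero_of_gcd_eq_zero_left h0, Nat.eq_zero_of_gcd_eq_zero_right h0, h0⟩
    · right
      exact ⟨h0, Nat.mod_eq_zero_of_dvd (Nat.gcd_dvd_left _ _),
        Nat.mod_eq_zero_of_dvd (Nat.gcd_dvd_right _ _), Nat.coprime_div_gcd_div_gcd h0⟩

/-- Integer valued functions that are differences of two `SFN` functions. -/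
def SFZ {ι : Type} (F : (ι → ℕ) → ℤ) : Prop :=
  ∃ f g : (ι → ℕ) → ℕ, SFN f ∧ SFN g ∧ ∀ a, F a = (f a : ℤ) - g a

namespace SFZ

variable {ι ι' : Type} {F G : (ι → ℕ) → ℤ}

theorem congr (h : SFZ F) (hFG : ∀ a, F a = G a) : SFZ G := by
  have : F = G := funext hFG
  rwa [← this]

theorem cast {f : (ι → ℕ) → ℕ} (hf : SFN f) : SFZ (fun a => (f a : ℤ)) :=
  ⟨f, fun _ => 0, hf, SFN.const 0, fun _ => by simp⟩

theorem rename (h : SFZ F) (e : ι → ι') : SFZ (fun v : ι' → ℕ => F (fun i => v (e i))) := by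
  obtain ⟨f, g, hf, hg, h⟩ := h
  exact ⟨_, _, hf.rename e, hg.rename e, fun _ => h _⟩

theorem const (c : ℤ) : SFZ (fun _ : ι → ℕ => c) :=
  ⟨fun _ => c.toNat, fun _ => (-c).toNat, SFN.const _, SFN.const _, fun _ => by beta_reduce; omega⟩

theorem add (hF : SFZ F) (hG : SFZ G) : SFZ (fun a => F a + G a) := by
  obtain ⟨f, g, hf, hg, h⟩ := hF
  obtain ⟨f', g', hf', hg', h'⟩ := hG
  exact ⟨_, _, hf.add hf', hg.add hg', fun a => by beta_reduce; rw [h, h']; push_cast; ring⟩

theorem neg (hF : SFZ F) : SFZ (fun a => - F a) := by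
  obtain ⟨f, g, hf, hg, h⟩ := hF
  exact ⟨_, _, hg, hf, fun a => by beta_reduce; rw [h]; ring⟩

theorem sub (hF : SFZ F) (hG : SFZ G) : SFZ (fun a => F a - G a) :=
  (hF.add hG.neg).congr fun _ => by ring

theorem mul (hF : SFZ F) (hG : SFZ G) : SFZ (fun a => F a * G a) := by
  obtain ⟨f, g, hf, hg, h⟩ := hF
  obtain ⟨f', g', hf', hg', h'⟩ := hG
  exact ⟨_, _, (hf.mul hf').add (hg.mul hg'), (hf.mul hg').add (hg.mul hf'),
    fun a => by beta_reduce; rw [h, h']; push_cast; ring⟩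

theorem npow (hF : SFZ F) (n : ℕ) : SFZ (fun a => F a ^ n) := by
  induction n with
  | zero => exact (const 1).congr fun _ => by simp
  | succ n ih => exact (ih.mul hF).congr fun _ => by ring

theorem sum {κ : Type} (s : Finset κ) {F : κ → (ι → ℕ) → ℤ} (hF : ∀ k, SFZ (F k)) :
    SFZ (fun a => ∑ k ∈ s, F k a) := by
  classical
  induction s using Finset.induction_on with
  | empty => exact (const 0).congr fun _ => by simp
  | insert k s hk ih => exact ((hF k).add ih).congr fun _ => by simp [Finset.sum_insert hk]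

theorem prod {κ : Type} (s : Finset κ) {F : κ → (ι → ℕ) → ℤ} (hF : ∀ k, SFZ (F k)) :
    SFZ (fun a => ∏ k ∈ s, F k a) := by
  classical
  induction s using Finset.induction_on with
  | empty => exact (const 1).congr fun _ => by simp
  | insert k s hk ih => exact ((hF k).mul ih).congr fun _ => by simp [Finset.prod_insert hk]

theorem toNat (hF : SFZ F) : SFN (fun a => (F a).toNat) := by
  obtain ⟨f, g, hf, hg, h⟩ := hF
  exact (hf.sub hg).congr fun a => by rw [h]; omega

theorem natAbs (hF : SFZ F) : SFN (fun a => (F a).natAbs) :=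
  (hF.toNat.add hF.neg.toNat).congr fun a => by omega

theorem of_cast {f : (ι → ℕ) → ℕ} (hF : SFZ (fun a => (f a : ℤ))) : SFN f :=
  hF.toNat.congr fun _ => by simp

end SFZ

theorem SF.eqZ {ι : Type} {F G : (ι → ℕ) → ℤ} (hF : SFZ F) (hG : SFZ G) :
    SF (fun a => F a = G a) :=
  (SF.eq (hF.sub hG).natAbs (SFN.const 0)).congr fun a => by omega

end Crest.Agent.R323
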