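import Mathlib
import Crest.Agent.R323.Arith

/-!
The rational points with positive `x`-coordinate on `y ^ 2 = x ^ 3 - 2 x` are the nonzero
multiples of `(2, 2)`; growth of the numerators of their `x`-coordinates.
-/

set_option autoImplicit false

namespace Crest.Agent.R323

open WeierstrassCurve WeierstrassCurve.Affine

/-- The curve `y ^ 2 = x ^ 3 - 2 x`. -/
def EC : Affine ℚ := ⟨0, 0, 0, -2, 0⟩

theorem EC_eqn {x y : ℚ} : EC.Equation x y ↔ y ^ 2 = x ^ 3 - 2 * x := by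
  rw [equation_iff]
  simp only [EC]
  constructor <;> intro h <;> linear_combination h

theorem EC_nonsing {x y : ℚ} : EC.Nonsingular x y ↔ y ^ 2 = x ^ 3 - 2 * x := by
  rw [← EC_eqn, equation_iff_nonsingular_of_Δ_ne_zero]
  simp [EC, WeierstrassCurve.Δ, WeierstrassCurve.b₂, WeierstrassCurve.b₄, WeierstrassCurve.b₆,
    WeierstrassCurve.b₈]

theorem EC_negY (x y : ℚ) : EC.negY x y = -y := by simp [negY, EC]

/-- The point with the given coordinates. -/
def pt (x y : ℚ) (h : y ^ 2 = x ^ 3 - 2 * x) : EC.Point := Point.some x y (EC_nonsing.2 h)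

theorem pt_congr {x y x' y' : ℚ} (h : y ^ 2 = x ^ 3 - 2 * x) (h' : y' ^ 2 = x' ^ 3 - 2 * x')
    (hx : x = x') (hy : y = y') : pt x y h = pt x' y' h' := by
  subst hx hy
  rfl

theorem pt_inj {x y x' y' : ℚ} {h : y ^ 2 = x ^ 3 - 2 * x} {h' : y' ^ 2 = x' ^ 3 - 2 * x'}
    (e : pt x y h = pt x' y' h') : x = x' ∧ y = y' := by
  simpa [pt] using e

theorem pt_ne_zero {x y : ℚ} (h : y ^ 2 = x ^ 3 - 2 * x) : pt x y h ≠ 0 := Point.some_ne_zero _

theorem neg_pt {x y : ℚ} (h : y ^ 2 = x ^ 3 - 2 * x) :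
    -pt x y h = pt x (-y) (by rw [neg_sq, h]) := by
  simp only [pt, Point.neg_some, EC_negY]

theorem pt_eq_or {x y x' y' : ℚ} (h : y ^ 2 = x ^ 3 - 2 * x) (h' : y' ^ 2 = x' ^ 3 - 2 * x')
    (hx : x = x') : pt x y h = pt x' y' h' ∨ pt x y h = -pt x' y' h' :=
  Point.X_eq_iff.1 hx

/-- The generator. -/
def gen : EC.Point := pt 2 2 (by norm_num)

theorem pt_add_gen {x y : ℚ} (h : y ^ 2 = x ^ 3 - 2 * x) (hx : x ≠ 2) :
    ∃ y' h', pt x y h + gen = pt (xp x y) y' h' := by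
  have e : EC.addX x 2 (EC.slope x 2 y 2) = xp x y := by
    rw [slope_of_X_ne hx]
    simp [addX, EC, xp]
  have := Point.add_of_X_ne (h₁ := EC_nonsing.2 h)
    (h₂ := EC_nonsing.2 (show (2 : ℚ) ^ 2 = 2 ^ 3 - 2 * 2 by norm_num)) hx
  have h3 := nonsingular_add (EC_nonsing.2 h)
    (EC_nonsing.2 (show (2 : ℚ) ^ 2 = 2 ^ 3 - 2 * 2 by norm_num)) fun hxy => hx hxy.left
  have h4 := EC_nonsing.1 h3
  refine ⟨EC.addY x 2 y (EC.slope x 2 y 2), by rw [← e]; exact h4, ?_⟩
  exact this.trans (pt_congr h4 _ e rfl)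

theorem pt_sub_gen {x y : ℚ} (h : y ^ 2 = x ^ 3 - 2 * x) (hx : x ≠ 2) :
    ∃ y' h', pt x y h - gen = pt (xp x (-y)) y' h' := by
  obtain ⟨y', h', e⟩ := pt_add_gen (x := x) (y := -y) (by rw [neg_sq, h]) hx
  refine ⟨-y', by rw [neg_sq, h'], ?_⟩
  rw [← neg_pt h', ← e, ← neg_pt h]
  abel

theorem pt_add_self {u v : ℚ} (h : v ^ 2 = u ^ 3 - 2 * u) (hv : v ≠ 0) :
    ∃ y' h', pt u v h + pt u v h = pt (((u ^ 2 + 2) / (2 * v)) ^ 2) y' h' := by
  have hy : v ≠ EC.negY u v := by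
    rw [EC_negY]
    intro h
    apply hv
    linarith
  have e : EC.addX u u (EC.slope u u v v) = ((u ^ 2 + 2) / (2 * v)) ^ 2 := by
    rw [slope_of_Y_ne rfl hy, EC_negY]
    simp only [addX, EC]
    field_simp
    linear_combination (-32 * u) * h
  have := Point.add_self_of_Y_ne (h₁ := EC_nonsing.2 h) hy
  have h3 := nonsingular_add (EC_nonsing.2 h) (EC_nonsing.2 h) fun hxy => hy hxy.right
  have h4 := EC_nonsing.1 h3
  refine ⟨EC.addY u u v (EC.slope u u v v), by rw [← e]; exact h4, ?_⟩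
  exact this.trans (pt_congr h4 _ e rfl)

theorem two_le_num {x y : ℚ} (h : y ^ 2 = x ^ 3 - 2 * x) (h0 : 0 < x) : 2 ≤ x.num := by
  have h1 := sq_sub_pos h h0
  have pu : (0 : ℤ) < x.den := by exact_mod_cast x.den_pos
  have pa : (0 : ℤ) < x.num := Rat.num_pos.2 h0
  nlinarith

theorem den_lt_num {x y : ℚ} (h : y ^ 2 = x ^ 3 - 2 * x) (h0 : 0 < x) : (x.den : ℤ) < x.num := by
  have h1 := sq_sub_pos h h0
  have pu : (0 : ℤ) < x.den := by exact_mod_cast x.den_pos
  have pa : (0 : ℤ) < x.num := Rat.num_pos.2 h0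
  nlinarith

theorem half_pt {x y : ℚ} (h : y ^ 2 = x ^ 3 - 2 * x) (h0 : 0 < x) (ho : Odd x.num) :
    ∃ u v h', 0 < u ∧ u.num ^ 4 < 4 * x.num ∧
      (pt x y h = pt u v h' + pt u v h' ∨ pt x y h = -(pt u v h' + pt u v h')) := by
  obtain ⟨u, v, hu, h', e⟩ := exists_half h h0 ho
  refine ⟨u, v, h', hu, ?_, ?_⟩
  · rw [← e]
    exact double_num h' hu
  · obtain ⟨y', h'', e'⟩ := pt_add_self h' (y_ne_zero h' hu)
    rw [e']
    exact pt_eq_or _ _ e.symm

theorem lt_of_pow_four {a b : ℤ} (ha : 2 ≤ a) (h : b ^ 4 < 8 * a) : b < a := by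
  by_contra hc
  push Not at hc
  have h1 : a ^ 4 ≤ b ^ 4 := pow_le_pow_left₀ (by omega) hc 4
  have h2 : 8 ≤ a ^ 3 := by
    have := pow_le_pow_left₀ (by norm_num) ha 3
    linarith
  nlinarith

/-- Descent: every point with positive `x`-coordinate is a multiple of the generator. -/
theorem mem_zmultiples (n : ℕ) : ∀ (x y : ℚ) (h : y ^ 2 = x ^ 3 - 2 * x), 0 < x →
    x.num < n → pt x y h ∈ AddSubgroup.zmultiples gen := by
  induction n with
  | zero =>
    intro x y h h0 hn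
    have := two_le_num h h0
    omega
  | succ n ih =>
    intro x y h h0 hn
    have h2 := two_le_num h h0
    have hg : gen ∈ AddSubgroup.zmultiples gen := AddSubgroup.mem_zmultiples _
    have key : ∀ (x' y' : ℚ) (h' : y' ^ 2 = x' ^ 3 - 2 * x'), 0 < x' → Odd x'.num →
        x'.num ≤ 2 * x.num → pt x' y' h' ∈ AddSubgroup.zmultiples gen := by
      intro x' y' h' h0' ho hle
      obtain ⟨u, v, hu, u0, u1, e⟩ := half_pt h' h0' ho
      have : u.num < x.num := lt_of_pow_four h2 (by linarith)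
      have m := ih u v hu u0 (by push_cast at hn; omega)
      rcases e with e | e <;> rw [e]
      · exact add_mem m m
      · exact neg_mem (add_mem m m)
    rcases Int.even_or_odd x.num with he | ho
    · by_cases hx : x = 2
      · rcases pt_eq_or h (show (2 : ℚ) ^ 2 = 2 ^ 3 - 2 * 2 by norm_num) hx with e | e <;> rw [e]
        · exact hg
        · exact neg_mem hg
      obtain ⟨e, ho⟩ := xp_num_even h hx he
      have h' : (-y) ^ 2 = x ^ 3 - 2 * x := by rw [neg_sq, h]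
      have p1 := xp_pos h hx h0
      have p2 := xp_pos h' hx h0
      have q1 := Rat.num_pos.2 p1
      have q2 := Rat.num_pos.2 p2
      have o : Odd ((xp x y).num * (xp x (-y)).num) := by
        rw [e]
        exact ho.pow
      have hd := den_lt_num h h0
      have pu : (0 : ℤ) < x.den := by exact_mod_cast x.den_pos
      by_cases hc : (xp x y).num ≤ 2 * x.num
      · obtain ⟨y', h'', e'⟩ := pt_add_gen h hx
        have m := key _ _ h'' p1 (Int.odd_mul.1 o).1 hc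
        rw [← e'] at m
        simpa using sub_mem m hg
      · obtain ⟨y', h'', e'⟩ := pt_sub_gen h hx
        have m := key _ _ h'' p2 (Int.odd_mul.1 o).2 (by nlinarith)
        rw [← e'] at m
        simpa using add_mem m hg
    · exact key x y h h0 ho (by omega)

/-- Numerator of the `x`-coordinate. -/
def xnum : EC.Point → ℤ
  | 0 => 1
  | Point.some x _ _ => x.num

@[simp] theorem xnum_pt {x y : ℚ} (h : y ^ 2 = x ^ 3 - 2 * x) : xnum (pt x y h) = x.num := rfl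

theorem xnum_neg (P : EC.Point) : xnum (-P) = xnum P := by
  cases P <;> rfl

/-- The numerators of the multiples of the generator. -/
noncomputable def seqA (n : ℕ) : ℤ := xnum (n • gen)

theorem seqA_one : seqA 1 = 2 := by
  rw [seqA, one_nsmul, gen, xnum_pt]
  rfl

theorem two_gen : ∃ y h, 2 • gen = pt (9 / 4) y h := by
  obtain ⟨y, h, e⟩ := pt_add_self (u := 2) (v := 2) (by norm_num) (by norm_num)
  refine ⟨y, by rw [h]; norm_num, ?_⟩
  rw [two_nsmul, gen, e]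
  exact pt_congr _ _ (by norm_num) rfl

theorem seqA_two : seqA 2 = 9 := by
  obtain ⟨y, h, e⟩ := two_gen
  rw [seqA, e, xnum_pt]
  norm_num

theorem step_pt {n : ℕ} {x y : ℚ} {h : y ^ 2 = x ^ 3 - 2 * x} (e : (n + 1) • gen = pt x y h)
    (hx : x ≠ 2) : seqA (n + 1) = x.num ∧ seqA (n + 2) = (xp x y).num ∧
      seqA n = (xp x (-y)).num ∧ ∃ y' h', (n + 2) • gen = pt (xp x y) y' h' := by
  obtain ⟨y1, h1, e1⟩ := pt_add_gen h hx
  obtain ⟨y2, h2, e2⟩ := pt_sub_gen h hx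
  have f1 : (n + 2) • gen = pt (xp x y) y1 h1 := by rw [← e1, ← e, ← succ_nsmul]
  have f2 : n • gen = pt (xp x (-y)) y2 h2 := by rw [← e2, ← e, succ_nsmul, add_sub_cancel_right]
  refine ⟨by rw [seqA, e, xnum_pt], by rw [seqA, f1, xnum_pt], by rw [seqA, f2, xnum_pt],
    y1, h1, f1⟩

theorem prod_bounds {x y : ℚ} (h : y ^ 2 = x ^ 3 - 2 * x) (hx : x ≠ 2) (h0 : 0 < x) :
    x.num ^ 2 < (xp x y).num * (xp x (-y)).num ∧
      (xp x y).num * (xp x (-y)).num ≤ 16 * x.num ^ 2 ∧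
      (4 * x.num ^ 2 < (xp x y).num * (xp x (-y)).num ∨ (Even x.num ∧ Odd (xp x y).num)) ∧
      (Odd x.num → 4 * x.num ^ 2 < (xp x y).num * (xp x (-y)).num) := by
  have hd := den_lt_num h h0
  have pu : (0 : ℤ) < x.den := by exact_mod_cast x.den_pos
  rcases Int.even_or_odd x.num with he | ho
  · obtain ⟨e, ho⟩ := xp_num_even h hx he
    have o : Odd ((xp x y).num * (xp x (-y)).num) := by
      rw [e]
      exact ho.pow
    refine ⟨by rw [e]; nlinarith, by rw [e]; nlinarith, Or.inr ⟨he, (Int.odd_mul.1 o).1⟩, ?_⟩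
    intro ho
    exact absurd he (Int.not_even_iff_odd.2 ho)
  · have e := xp_num_odd h hx ho
    have : 4 * x.num ^ 2 < (xp x y).num * (xp x (-y)).num := by rw [e]; nlinarith
    exact ⟨by rw [e]; nlinarith, by rw [e]; nlinarith, Or.inl this, fun _ => this⟩

theorem seq_inv (n : ℕ) : (∃ x y h, (n + 2) • gen = pt x y h ∧ 0 < x) ∧
    2 ≤ seqA (n + 1) ∧ seqA (n + 1) < seqA (n + 2) := by
  induction n with
  | zero =>
    obtain ⟨y, h, e⟩ := two_gen
    exact ⟨⟨_, y, h, e, by norm_num⟩, by simp [seqA_one], by simp [seqA_one, seqA_two]⟩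
  | succ n ih =>
    obtain ⟨⟨x, y, h, e, h0⟩, h1, h2⟩ := ih
    have hx : x ≠ 2 := by
      rintro rfl
      have : seqA (n + 2) = 2 := by rw [seqA, e, xnum_pt]; rfl
      omega
    obtain ⟨e1, e2, e3, y', h', e4⟩ := step_pt e hx
    have := (prod_bounds h hx h0).1
    rw [← e1, ← e2, ← e3] at this
    refine ⟨⟨_, y', h', e4, xp_pos h hx h0⟩, by linarith, ?_⟩
    by_contra hc
    push Not at hc
    have h3 : 0 < seqA (n + 1) := by linarith
    nlinarith

theorem seq_pt (n : ℕ) : ∃ x y h, (n + 2) • gen = pt x y h ∧ 0 < x ∧ x ≠ 2 := by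
  obtain ⟨⟨x, y, h, e, h0⟩, h1, h2⟩ := seq_inv n
  refine ⟨x, y, h, e, h0, ?_⟩
  rintro rfl
  have : seqA (n + 2) = 2 := by rw [seqA, e, xnum_pt]; rfl
  omega

theorem seqA_pos (n : ℕ) : 0 < seqA (n + 1) := by
  have := (seq_inv n).2.1
  omega

theorem seq_rec (n : ℕ) : seqA (n + 2) ^ 2 < seqA (n + 3) * seqA (n + 1) ∧
    seqA (n + 3) * seqA (n + 1) ≤ 16 * seqA (n + 2) ^ 2 ∧
    (4 * seqA (n + 2) ^ 2 < seqA (n + 3) * seqA (n + 1) ∨
      4 * seqA (n + 3) ^ 2 < seqA (n + 4) * seqA (n + 2)) := by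
  obtain ⟨x, y, h, e, h0, hx⟩ := seq_pt n
  obtain ⟨e1, e2, e3, -⟩ := step_pt e hx
  obtain ⟨b1, b2, b3, -⟩ := prod_bounds h hx h0
  rw [← e1, ← e2, ← e3] at b1 b2 b3
  refine ⟨b1, b2, b3.imp id fun ⟨_, ho⟩ => ?_⟩
  obtain ⟨x, y, h, e, h0, hx⟩ := seq_pt (n + 1)
  obtain ⟨e1, e2, e3, -⟩ := step_pt e hx
  obtain ⟨-, -, -, b4⟩ := prod_bounds h hx h0
  rw [← e1, ← e2, ← e3] at b4
  exact b4 ho

/-- The ratio of consecutive numerators. -/
noncomputable def seqR (n : ℕ) : ℚ := (seqA (n + 2) : ℚ) / seqA (n + 1)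

theorem seqR_zero : seqR 0 = 9 / 2 := by
  simp [seqR, seqA_one, seqA_two]

theorem seqR_pos (n : ℕ) : 0 < seqR n := by
  have h1 : (0 : ℚ) < seqA (n + 1) := by exact_mod_cast seqA_pos n
  have h2 : (0 : ℚ) < seqA (n + 2) := by exact_mod_cast seqA_pos (n + 1)
  unfold seqR
  positivity

theorem seqR_rec (n : ℕ) : seqR n < seqR (n + 1) ∧ seqR (n + 1) ≤ 16 * seqR n ∧
    4 * seqR n ≤ seqR (n + 2) := by
  have key : ∀ (n : ℕ) (c : ℤ), c * seqA (n + 2) ^ 2 < seqA (n + 3) * seqA (n + 1) →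
      c * seqR n < seqR (n + 1) := by
    intro n c h
    have h1 : (0 : ℚ) < seqA (n + 1) := by exact_mod_cast seqA_pos n
    have h2 : (0 : ℚ) < seqA (n + 2) := by exact_mod_cast seqA_pos (n + 1)
    have h' : (c : ℚ) * seqA (n + 2) ^ 2 < seqA (n + 3) * seqA (n + 1) := by exact_mod_cast h
    unfold seqR
    rw [← mul_div_assoc, div_lt_div_iff₀ h1 h2]
    nlinarith
  have mono : ∀ n, seqR n < seqR (n + 1) := fun n => by
    simpa using key n 1 (by simpa using (seq_rec n).1)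
  refine ⟨mono n, ?_, ?_⟩
  · have h1 : (0 : ℚ) < seqA (n + 1) := by exact_mod_cast seqA_pos n
    have h2 : (0 : ℚ) < seqA (n + 2) := by exact_mod_cast seqA_pos (n + 1)
    have h' : (seqA (n + 3) : ℚ) * seqA (n + 1) ≤ 16 * seqA (n + 2) ^ 2 := by
      exact_mod_cast (seq_rec n).2.1
    unfold seqR
    rw [← mul_div_assoc, div_le_div_iff₀ h2 h1]
    nlinarith
  · rcases (seq_rec n).2.2 with h | h
    · have := key n 4 h
      have := mono (n + 1)
      push_cast at *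
      linarith
    · have := key (n + 1) 4 h
      have := mono n
      push_cast at *
      linarith

theorem seqR_strictMono : StrictMono seqR := strictMono_nat_of_lt_succ fun n => (seqR_rec n).1

theorem seqR_ge (n : ℕ) : 2 ^ (n + 1) ≤ seqR n := by
  have : ∀ n, 2 ^ (n + 1) ≤ seqR n ∧ 2 ^ (n + 2) ≤ seqR (n + 1) := by
    intro n
    induction n with
    | zero =>
      have := (seqR_rec 0).1
      rw [seqR_zero] at this ⊢
      constructor
      · norm_num
      · norm_num at this ⊢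
        linarith
    | succ n ih =>
      refine ⟨ih.2, ?_⟩
      have := (seqR_rec n).2.2
      have e : (2 : ℚ) ^ (n + 1 + 2) = 4 * 2 ^ (n + 1) := by ring
      rw [e]
      linarith [ih.1]
  exact (this n).1

theorem seqR_le (n : ℕ) : seqR n ≤ 16 ^ (n + 1) := by
  induction n with
  | zero => rw [seqR_zero]; norm_num
  | succ n ih =>
    have := (seqR_rec n).2.1
    rw [pow_succ]
    linarith

theorem seqA_succ (n : ℕ) : (seqA (n + 2) : ℚ) = seqR n * seqA (n + 1) := by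
  have h1 : (0 : ℚ) < seqA (n + 1) := by exact_mod_cast seqA_pos n
  unfold seqR
  field_simp

theorem seqA_ge (n : ℕ) : (2 : ℚ) ^ ((n + 1).choose 2) ≤ seqA (n + 1) := by
  induction n with
  | zero => simp [seqA_one]
  | succ n ih =>
    rw [seqA_succ, Nat.choose_succ_succ' (n + 1) 1, Nat.choose_one_right, pow_add]
    exact mul_le_mul (seqR_ge n) ih (by positivity) (seqR_pos n).le

theorem seqA_le {T : ℚ} (hT : 2 ≤ T) (n : ℕ) (h : ∀ j < n, seqR j ≤ T) :
    seqA (n + 1) ≤ T ^ (n + 1) := by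
  induction n with
  | zero => simpa [seqA_one] using hT
  | succ n ih =>
    have h1 : (0 : ℚ) < seqA (n + 1) := by exact_mod_cast seqA_pos n
    rw [seqA_succ, pow_succ']
    exact mul_le_mul (h n (by omega)) (ih fun j hj => h j (by omega)) h1.le (by linarith)

/-- The condition singling out one point. -/
def PtCond (T x y : ℚ) : Prop :=
  y ^ 2 = x ^ 3 - 2 * x ∧ 0 < x ∧ x ≠ 2 ∧ T * x.num ≤ (xp x y).num ∧ x.num < T * (xp x (-y)).num

theorem ptCond_iff {T : ℚ} {n : ℕ} {x y : ℚ} {h : y ^ 2 = x ^ 3 - 2 * x}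
    (e : (n + 2) • gen = pt x y h) (hx : x ≠ 2) :
    (T * x.num ≤ (xp x y).num ∧ x.num < T * (xp x (-y)).num) ↔
      (seqR n < T ∧ T ≤ seqR (n + 1)) := by
  obtain ⟨e1, e2, e3, -⟩ := step_pt e hx
  rw [← e1, ← e2, ← e3]
  have h1 : (0 : ℚ) < seqA (n + 1) := by exact_mod_cast seqA_pos n
  have h2 : (0 : ℚ) < seqA (n + 2) := by exact_mod_cast seqA_pos (n + 1)
  unfold seqR
  rw [div_lt_iff₀ h1, le_div_iff₀ h2, and_comm]

theorem ptCond_index {T x y : ℚ} (hT : 1 ≤ T) (H : PtCond T x y) :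
    ∃ n, (n + 2) • gen = pt x y H.1 ∧ seqR n < T ∧ T ≤ seqR (n + 1) := by
  obtain ⟨h, h0, hx, h1, h2⟩ := H
  obtain ⟨k, hk⟩ := AddSubgroup.mem_zmultiples_iff.1
    (mem_zmultiples (x.num.toNat + 1) x y h h0 (by omega))
  have g1 : ∀ y' h', gen ≠ pt x y' h' := fun y' h' e => hx (pt_inj e).1.symm
  obtain ⟨m, rfl | rfl⟩ := Int.eq_nat_or_neg k
  · rw [natCast_zsmul] at hk
    rcases m with _ | _ | n
    · exact absurd hk.symm (by simpa using pt_ne_zero h)
    · exact absurd (by simpa using hk) (g1 y h)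
    · exact ⟨n, hk, (ptCond_iff hk hx).1 ⟨h1, h2⟩⟩
  · rw [neg_zsmul, natCast_zsmul, neg_eq_iff_eq_neg, neg_pt] at hk
    rcases m with _ | _ | n
    · exact absurd hk.symm (by simpa using pt_ne_zero _)
    · exact absurd (by simpa using hk) (g1 _ _)
    · exfalso
      obtain ⟨e1, -, e3, -⟩ := step_pt hk hx
      rw [neg_neg] at e3
      rw [← e1, ← e3] at h1
      have h3 : (seqA (n + 1) : ℚ) < seqA (n + 2) := by exact_mod_cast (seq_inv n).2.2
      have h4 : (0 : ℚ) < seqA (n + 2) := by exact_mod_cast seqA_pos (n + 1)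
      nlinarith

theorem ptCond_unique {T x y x' y' : ℚ} (hT : 1 ≤ T) (H : PtCond T x y) (H' : PtCond T x' y') :
    x = x' ∧ y = y' := by
  obtain ⟨n, e, h1, h2⟩ := ptCond_index hT H
  obtain ⟨n', e', h1', h2'⟩ := ptCond_index hT H'
  have : n = n' := by
    have a1 := seqR_strictMono.lt_iff_lt.1 (h1.trans_le h2')
    have a2 := seqR_strictMono.lt_iff_lt.1 (h1'.trans_le h2)
    omega
  subst this
  exact pt_inj (e.symm.trans e')

theorem ptCond_exists {T : ℕ} (hT : 5 ≤ T) : ∃ x y, PtCond T x y := by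
  have hex : ∃ n, (T : ℚ) ≤ seqR n := by
    refine ⟨T, le_trans ?_ (seqR_ge T)⟩
    have : T < 2 ^ (T + 1) := lt_trans (Nat.lt_succ_self T) Nat.lt_two_pow_self
    exact_mod_cast this.le
  classical
  have h1 := Nat.find_spec hex
  have h2 := fun m => Nat.find_min hex (m := m)
  rcases hk : Nat.find hex with _ | n
  · rw [hk, seqR_zero] at h1
    have : (5 : ℚ) ≤ T := by exact_mod_cast hT
    linarith
  · rw [hk] at h1 h2
    obtain ⟨x, y, h, e, h0, hx⟩ := seq_pt n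
    exact ⟨x, y, h, h0, hx, (ptCond_iff e hx).2 ⟨not_le.1 (h2 n (by omega)), h1⟩⟩

theorem ptCond_bounds {T : ℕ} {x y : ℚ} (hT : 2 ≤ T) (H : PtCond T x y) :
    ∃ k : ℕ, 2 ^ k < 2 * T ∧ T ≤ 16 ^ k ∧ 2 ^ (k.choose 2) ≤ x.num ∧ x.num ≤ T ^ k := by
  have hT' : (2 : ℚ) ≤ T := by exact_mod_cast hT
  obtain ⟨n, e, h1, h2⟩ := ptCond_index (by linarith) H
  obtain ⟨e1, -⟩ := step_pt e H.2.2.1
  refine ⟨n + 2, ?_, ?_, ?_, ?_⟩
  · have := (seqR_ge n).trans_lt h1
    have : (2 : ℚ) ^ (n + 2) < 2 * T := by rw [pow_succ]; linarith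
    exact_mod_cast this
  · exact_mod_cast h2.trans (seqR_le (n + 1))
  · rw [← e1]
    exact_mod_cast seqA_ge (n + 1)
  · rw [← e1]
    exact_mod_cast seqA_le hT' (n + 1) fun j hj =>
      (seqR_strictMono.monotone (by omega : j ≤ n)).trans h1.le

end Crest.Agent.R323
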