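import Mathlib
import Crest.Agent.R323.Basic
import Crest.Agent.R323.Curve

/-!
Exponentiation has a single-fold Diophantine graph.
-/

set_option autoImplicit false

namespace Crest.Agent.R323

/-- Unreduced numerator of the `x`-coordinate of the sum with the generator. -/
def nxN (p q r : ℤ) : ℤ := (r - 2 * q ^ 2) ^ 2 - q * (p + 2 * q) * (p - 2 * q) ^ 2

/-- Unreduced denominator of the `x`-coordinate of the sum with the generator. -/
def nxD (p q : ℤ) : ℤ := q ^ 2 * (p - 2 * q) ^ 2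

/-- Reduced numerator. -/
def nx (p q r : ℤ) : ℕ := (nxN p q r).natAbs / Nat.gcd (nxN p q r).natAbs (nxD p q).natAbs

theorem natAbs_num_div (N D : ℤ) (hD : 0 < D) :
    ((N : ℚ) / D).num.natAbs = N.natAbs / Nat.gcd N.natAbs D.natAbs := by
  rw [← Rat.divInt_eq_div, Rat.num_divInt, Int.sign_eq_one_of_pos hD, one_mul,
    Int.natAbs_ediv_of_dvd (Int.gcd_dvd_right _ _), Int.natAbs_natCast, Int.gcd_eq_natAbs,
    Nat.gcd_comm]

theorem nx_eq {p q r : ℤ} {x y : ℚ} (hq : 0 < q) (hx : x * q = p) (hy : y * q ^ 2 = r)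
    (h2 : x ≠ 2) (h0 : 0 < xp x y) : (nx p q r : ℤ) = (xp x y).num := by
  have hq' : (q : ℚ) ≠ 0 := by exact_mod_cast hq.ne'
  have h3 : x - 2 ≠ 0 := sub_ne_zero.2 h2
  have hne : p - 2 * q ≠ 0 := by
    intro h
    have : ((p - 2 * q : ℤ) : ℚ) = 0 := by rw [h]; simp
    push_cast at this
    rw [← hx] at this
    have : (x - 2) * q = 0 := by linear_combination this
    exact (mul_ne_zero h3 hq') this
  have hD : 0 < nxD p q := by
    unfold nxD
    positivity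
  have e : xp x y = (nxN p q r : ℚ) / (nxD p q : ℚ) := by
    rw [eq_div_iff (by exact_mod_cast hD.ne')]
    unfold xp nxN nxD
    push_cast
    rw [← hx, ← hy]
    field_simp
    ring
  rw [nx, ← natAbs_num_div _ _ hD, ← e]
  exact Int.natAbs_of_nonneg (Rat.num_pos.2 h0).le

/-- The integer form of `PtCond`. -/
def Cond (T p q : ℕ) (r : ℤ) : Prop :=
  0 < p ∧ 0 < q ∧ Nat.Coprime p q ∧ r ^ 2 = p * q * (p ^ 2 - 2 * q ^ 2) ∧ p ≠ 2 * q ∧
    T * p ≤ nx p q r ∧ p < T * nx p q (-r)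

theorem Cond.ptCond {T p q : ℕ} {r : ℤ} (H : Cond T p q r) :
    PtCond T ((p : ℚ) / q) ((r : ℚ) / q ^ 2) ∧ ((p : ℚ) / q).num = p ∧ ((p : ℚ) / q).den = q := by
  obtain ⟨hp, hq, hc, hr, hne, h1, h2⟩ := H
  have hq' : (0 : ℚ) < q := by exact_mod_cast hq
  have hp' : (0 : ℚ) < p := by exact_mod_cast hp
  have hqz : (0 : ℤ) < q := by exact_mod_cast hq
  have hx : (p : ℚ) / q * ((q : ℤ) : ℚ) = ((p : ℤ) : ℚ) := by
    push_cast
    field_simp
  have hnum : ((p : ℚ) / q).num = p := num_eq_of hqz (Nat.isCoprime_iff_coprime.2 hc) hx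
  have hden : (((p : ℚ) / q).den : ℤ) = q := den_eq_of hqz (Nat.isCoprime_iff_coprime.2 hc) hx
  have he : ((r : ℚ) / q ^ 2) ^ 2 = ((p : ℚ) / q) ^ 3 - 2 * ((p : ℚ) / q) := by
    have : (r : ℚ) ^ 2 = p * q * (p ^ 2 - 2 * q ^ 2) := by exact_mod_cast hr
    field_simp
    linear_combination this
  have h0 : 0 < (p : ℚ) / q := by positivity
  have hx2 : (p : ℚ) / q ≠ 2 := by
    intro h
    apply hne
    rw [div_eq_iff hq'.ne'] at h
    exact_mod_cast h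
  have n1 := nx_eq (r := r) (y := (r : ℚ) / q ^ 2) hqz hx (by push_cast; field_simp) hx2
    (xp_pos he hx2 h0)
  have n2 := nx_eq (r := -r) (y := -((r : ℚ) / q ^ 2)) hqz hx (by push_cast; field_simp) hx2
    (xp_pos (by rw [neg_sq, he]) hx2 h0)
  refine ⟨⟨he, h0, hx2, ?_, ?_⟩, hnum, by exact_mod_cast hden⟩
  · rw [hnum, ← n1]
    exact_mod_cast h1
  · rw [hnum, ← n2]
    exact_mod_cast h2

theorem cond_of_ptCond {T : ℕ} {x y : ℚ} (H : PtCond T x y) :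
    ∃ r, Cond T x.num.toNat x.den r := by
  obtain ⟨h, h0, hx, h1, h2⟩ := H
  obtain ⟨r, hr1, hr2⟩ := exists_int_y h
  have pa : (0 : ℤ) < x.num := Rat.num_pos.2 h0
  have pu : (0 : ℤ) < x.den := by exact_mod_cast x.den_pos
  have ea : ((x.num.toNat : ℕ) : ℤ) = x.num := Int.toNat_of_nonneg pa.le
  have n1 := nx_eq (r := r) pu (mul_den_eq x) (by push_cast; exact hr1) hx (xp_pos h hx h0)
  have n2 := nx_eq (r := -r) (y := -y) pu (mul_den_eq x) (by push_cast; rw [← hr1]; ring) hx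
    (xp_pos (by rw [neg_sq, h]) hx h0)
  refine ⟨r, by omega, x.den_pos, ?_, by rw [ea, hr2], ?_, ?_, ?_⟩
  · rw [← Nat.isCoprime_iff_coprime, ea]
    exact x.isCoprime_num_den
  · intro e
    apply hx
    have e' : x.num = 2 * x.den := by omega
    have := mul_den_eq x
    rw [e'] at this
    push_cast at this
    have hd : (x.den : ℚ) ≠ 0 := by exact_mod_cast x.den_nz
    exact mul_right_cancel₀ hd this
  · rw [← n1] at h1
    rw [ea]
    have : (T : ℤ) * x.num ≤ nx x.num x.den r := by exact_mod_cast h1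
    zify
    rwa [ea]
  · rw [← n2] at h2
    rw [ea]
    have : x.num < (T : ℤ) * nx x.num x.den (-r) := by exact_mod_cast h2
    zify
    rwa [ea]

theorem Cond.unique {T p q p' q' : ℕ} {r r' : ℤ} (hT : 1 ≤ T) (H : Cond T p q r)
    (H' : Cond T p' q' r') : p = p' ∧ q = q' ∧ r = r' := by
  obtain ⟨h1, h2, h3⟩ := H.ptCond
  obtain ⟨h1', h2', h3'⟩ := H'.ptCond
  obtain ⟨e1, e2⟩ := ptCond_unique (by exact_mod_cast hT) h1 h1'
  rw [e1] at h2 h3
  have a1 : p = p' := by exact_mod_cast h2.symm.trans h2'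
  have a2 : q = q' := h3.symm.trans h3'
  subst a1 a2
  refine ⟨rfl, rfl, ?_⟩
  have hq : (q : ℚ) ^ 2 ≠ 0 := by
    have : (0 : ℚ) < q := by exact_mod_cast H.2.1
    positivity
  have := (div_left_inj' hq).1 e2
  exact_mod_cast this

/-- The relation of quasi-polynomial growth. -/
def JR (T p : ℕ) : Prop :=
  5 ≤ T ∧ ∃ q r1 r2 : ℕ, r1 * r2 = 0 ∧ Cond T p q ((r1 : ℤ) - r2)

theorem JR.unique {T p p' : ℕ} (H : JR T p) (H' : JR T p') : p = p' := by
  obtain ⟨hT, q, r1, r2, -, h⟩ := H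
  obtain ⟨-, q', r1', r2', -, h'⟩ := H'
  exact (h.unique (by omega) h').1

theorem JR.exists {T : ℕ} (hT : 5 ≤ T) : ∃ p, JR T p := by
  obtain ⟨x, y, H⟩ := ptCond_exists hT
  obtain ⟨r, h⟩ := cond_of_ptCond H
  refine ⟨_, hT, _, r.toNat, (-r).toNat, ?_, by rwa [Int.toNat_sub_toNat_neg]⟩
  rcases le_total r 0 with h0 | h0
  · rw [Int.toNat_of_nonpos h0, zero_mul]
  · rw [Int.toNat_of_nonpos (z := -r) (by omega), mul_zero]

theorem JR.bounds {T p : ℕ} (H : JR T p) :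
    ∃ k : ℕ, 2 ^ k < 2 * T ∧ T ≤ 16 ^ k ∧ 2 ^ (k.choose 2) ≤ p ∧ p ≤ T ^ k := by
  obtain ⟨hT, q, r1, r2, -, h⟩ := H
  obtain ⟨h1, h2, -⟩ := h.ptCond
  obtain ⟨k, a, b, c, d⟩ := ptCond_bounds (by omega) h1
  rw [h2] at c d
  exact ⟨k, a, b, by exact_mod_cast c, by exact_mod_cast d⟩

theorem SFN.nx {ι : Type} {P Q R : (ι → ℕ) → ℤ} (hP : SFZ P) (hQ : SFZ Q) (hR : SFZ R) :
    SFN (fun a => nx (P a) (Q a) (R a)) := by
  have hN : SFZ (fun a => nxN (P a) (Q a) (R a)) :=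
    ((hR.sub ((SFZ.const 2).mul (hQ.npow 2))).npow 2).sub
      ((hQ.mul (hP.add ((SFZ.const 2).mul hQ))).mul ((hP.sub ((SFZ.const 2).mul hQ)).npow 2))
  have hD : SFZ (fun a => nxD (P a) (Q a)) :=
    (hQ.npow 2).mul ((hP.sub ((SFZ.const 2).mul hQ)).npow 2)
  exact hN.natAbs.div (hN.natAbs.gcd hD.natAbs)

theorem SF.cond {ι : Type} {T p q : (ι → ℕ) → ℕ} {R : (ι → ℕ) → ℤ} (hT : SFN T) (hp : SFN p)
    (hq : SFN q) (hR : SFZ R) : SF (fun a => Cond (T a) (p a) (q a) (R a)) := by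
  have hP := SFZ.cast hp
  have hQ := SFZ.cast hq
  exact (SF.lt (SFN.const 0) hp).and <| (SF.lt (SFN.const 0) hq).and <|
    (SF.coprime hp hq).and <|
    (SF.eqZ (hR.npow 2) ((hP.mul hQ).mul ((hP.npow 2).sub ((SFZ.const 2).mul (hQ.npow 2))))).and <|
    (SF.ne hp ((SFN.const 2).mul hq)).and <|
    (SF.le (hT.mul hp) (SFN.nx hP hQ hR)).and (SF.lt hp (hT.mul (SFN.nx hP hQ hR.neg)))

theorem SF.jr {ι : Type} {T p : (ι → ℕ) → ℕ} (hT : SFN T) (hp : SFN p) :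
    SF (fun a => JR (T a) (p a)) := by
  have key : SF (fun a => ∃ q r1 r2 : ℕ, 5 ≤ T a ∧ r1 * r2 = 0 ∧
      Cond (T a) (p a) q ((r1 : ℤ) - r2)) := by
    refine SF.ex (SF.ex (SF.ex ?_ ?_) ?_) ?_
    · exact (SF.le (SFN.const 5) (hT.rename _)).and <|
        (SF.eq ((SFN.proj _).mul (SFN.proj _)) (SFN.const 0)).and <|
        SF.cond (hT.rename _) (hp.rename _) (SFN.proj _)
          ((SFZ.cast (SFN.proj _)).sub (SFZ.cast (SFN.proj _)))
    · rintro a x y ⟨h5, -, h⟩ ⟨-, -, h'⟩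
      have := (h.unique (by omega) h').2.2
      omega
    · rintro a x y ⟨z, h5, h0, h⟩ ⟨z', -, h0', h'⟩
      have := (h.unique (by omega) h').2.2
      rcases Nat.mul_eq_zero.1 h0 with h0 | h0 <;> rcases Nat.mul_eq_zero.1 h0' with h0' | h0' <;>
        omega
    · rintro a x y ⟨_, _, h5, -, h⟩ ⟨_, _, -, -, h'⟩
      exact (h.unique (by omega) h').2.1
  refine key.congr fun a => ⟨fun ⟨q, r1, r2, h5, h⟩ => ⟨h5, q, r1, r2, h⟩,
    fun ⟨h5, q, r1, r2, h⟩ => ⟨q, r1, r2, h5, h⟩⟩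

open Pell

theorem yn_le {A : ℕ} (a1 : 1 < A) (n : ℕ) : yn a1 (n + 1) ≤ (2 * A) ^ n := by
  induction n with
  | zero => simp
  | succ n ih =>
    have := yn_succ_succ a1 n
    rw [pow_succ']
    have h2 := Nat.mul_le_mul_left (2 * A) ih
    exact le_trans (le_trans (Nat.le_add_right _ _) this.le) h2

theorem lt_yn {A : ℕ} (a1 : 1 < A) (n : ℕ) : A ^ (n + 1) < yn a1 (n + 2) := by
  rw [yn_succ]
  have h1 := xn_ge_a_pow a1 (n + 1)
  have h2 : 0 < yn a1 (n + 1) * A := Nat.mul_pos (lt_of_lt_of_le (Nat.succ_pos n) (yn_ge_n a1 _))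
    (by omega)
  omega

theorem pell_iff {A : ℕ} (a1 : 1 < A) (X Y : ℕ) :
    X * X = 1 + (A * A - 1) * Y * Y ↔ ∃ n, X = xn a1 n ∧ Y = yn a1 n := by
  constructor
  · intro h
    exact eq_pell a1 (show X * X - (A * A - 1) * Y * Y = 1 by omega)
  · rintro ⟨n, rfl, rfl⟩
    have : xn a1 n * xn a1 n - (A * A - 1) * yn a1 n * yn a1 n = 1 := pell_eq a1 n
    omega

/-- The conditions on the witnesses for `c = 2 ^ n`. -/
def PowCond (n c A V X Y : ℕ) : Prop :=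
  n + 1 < A ∧ c ≤ A ∧ JR A V ∧ X * X = 1 + (A * A - 1) * Y * Y ∧ Y ≤ V ∧
    Y % (A - 1) = n ∧ (c + (A - 2) * Y) % (4 * A - 5) = X % (4 * A - 5)

theorem le_two_pow_sub (A : ℕ) (h : 5 ≤ A) : 2 * A ≤ 2 ^ (A - 1) := by
  obtain ⟨k, rfl⟩ := Nat.exists_eq_add_of_le h
  induction k with
  | zero => norm_num
  | succ k ih =>
    have := ih (by omega)
    have e : 5 + (k + 1) - 1 = (5 + k - 1) + 1 := by omega
    rw [e, pow_succ]
    omega

theorem pow_cong {A : ℕ} (a1 : 1 < A) (n : ℕ) :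
    (2 ^ n + (A - 2) * yn a1 n) % (4 * A - 5) = xn a1 n % (4 * A - 5) := by
  have h := x_sub_y_dvd_pow a1 2 n
  have : xn a1 n ≡ 2 ^ n + (A - 2) * yn a1 n [MOD (4 * A - 5)] := by
    rw [Nat.modEq_iff_dvd]
    have e1 : ((4 * A - 5 : ℕ) : ℤ) = 2 * A * (2 : ℕ) - (2 : ℕ) * (2 : ℕ) - 1 := by
      rw [Nat.cast_sub (by omega)]
      push_cast
      ring
    rw [e1]
    convert h using 1
    rw [Nat.cast_add, Nat.cast_mul, Nat.cast_sub (by omega)]
    simp only [xz, yz]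
    ring
  exact this.symm

theorem PowCond.index {n c A V X Y : ℕ} (H : PowCond n c A V X Y) :
    ∃ a1 : 1 < A, X = xn a1 n ∧ Y = yn a1 n ∧ c = 2 ^ n := by
  obtain ⟨h1, h2, hJ, h3, h4, h5, h6⟩ := H
  have h5A : 5 ≤ A := hJ.1
  have a1 : 1 < A := by omega
  obtain ⟨m, rfl, rfl⟩ := (pell_iff a1 X Y).1 h3
  obtain ⟨k, k1, -, -, k4⟩ := hJ.bounds
  have hm2 : 2 ^ m < 2 * A := by
    rcases m with _ | _ | m
    · omega
    · omega
    · have := (lt_yn a1 m).trans_le (h4.trans k4)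
      have := (Nat.pow_lt_pow_iff_right a1).1 this
      exact lt_of_le_of_lt (Nat.pow_le_pow_right (show 0 < 2 by norm_num) (by omega)) k1
  have hA := le_two_pow_sub A h5A
  have hm3 : m < A - 1 := (Nat.pow_lt_pow_iff_right (show 1 < 2 by norm_num)).1 (hm2.trans_le hA)
  have hmod : yn a1 m % (A - 1) = m % (A - 1) := yn_modEq_a_sub_one a1 m
  rw [Nat.mod_eq_of_lt hm3, h5] at hmod
  subst hmod
  refine ⟨a1, rfl, rfl, ?_⟩
  have h7 := pow_cong a1 n
  rw [← h6] at h7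
  have h8 : 2 ^ n ≡ c [MOD (4 * A - 5)] := Nat.ModEq.add_right_cancel' _ h7
  exact (Nat.ModEq.eq_of_lt_of_lt h8 (by omega) (by omega)).symm

theorem powCond_exists (n : ℕ) : ∃ V X Y, PowCond n (2 ^ n) ((2 * 2 ^ n) ^ 64) V X Y := by
  have eA : (2 * 2 ^ n) ^ 64 = 2 ^ (64 * (n + 1)) := by
    rw [← pow_succ', ← pow_mul, mul_comm]
  rw [eA]
  set A := 2 ^ (64 * (n + 1)) with hA
  have h1 : 64 * (n + 1) < A := Nat.lt_two_pow_self
  have a1 : 1 < A := by omega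
  obtain ⟨V, hV⟩ := JR.exists (T := A) (by omega)
  obtain ⟨k, -, k2, k3, -⟩ := hV.bounds
  have hk : 16 * (n + 1) ≤ k := by
    rw [hA, show 16 = 2 ^ 4 by norm_num, ← pow_mul] at k2
    have := (Nat.pow_le_pow_iff_right (show 1 < 2 by norm_num)).1 k2
    omega
  refine ⟨V, xn a1 n, yn a1 n, by omega, ?_, hV, (pell_iff a1 _ _).2 ⟨n, rfl, rfl⟩, ?_, ?_,
    pow_cong a1 n⟩
  · exact Nat.pow_le_pow_right (by norm_num) (by omega)
  · refine le_trans ((strictMono_y a1).monotone (Nat.le_succ n)) ((yn_le a1 n).trans ?_)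
    refine le_trans ?_ k3
    rw [hA, ← pow_succ', ← pow_mul]
    refine Nat.pow_le_pow_right (by norm_num) ?_
    refine le_trans ?_ (Nat.choose_le_choose 2 hk)
    rw [Nat.choose_two_right, Nat.le_div_iff_mul_le (by norm_num)]
    have : 16 * (n + 1) - 1 = 16 * n + 15 := by omega
    rw [this]
    nlinarith
  · have : yn a1 n % (A - 1) = n % (A - 1) := yn_modEq_a_sub_one a1 n
    rw [this, Nat.mod_eq_of_lt (by omega)]

theorem SF.powCond {ι : Type} {n c A V X Y : (ι → ℕ) → ℕ} (hn : SFN n) (hc : SFN c) (hA : SFN A)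
    (hV : SFN V) (hX : SFN X) (hY : SFN Y) :
    SF (fun a => PowCond (n a) (c a) (A a) (V a) (X a) (Y a)) :=
  (SF.lt (hn.add (SFN.const 1)) hA).and <| (SF.le hc hA).and <| (SF.jr hA hV).and <|
    (SF.eq (hX.mul hX) ((SFN.const 1).add ((((hA.mul hA).sub (SFN.const 1)).mul hY).mul hY))).and <|
    (SF.le hY hV).and <| (SF.eq (hY.mod (hA.sub (SFN.const 1))) hn).and <|
    SF.eq ((hc.add ((hA.sub (SFN.const 2)).mul hY)).mod (((SFN.const 4).mul hA).sub (SFN.const 5)))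
      (hX.mod (((SFN.const 4).mul hA).sub (SFN.const 5)))

theorem SFN.two_pow {ι : Type} {f : (ι → ℕ) → ℕ} (hf : SFN f) : SFN (fun a => 2 ^ f a) := by
  have key : SF (fun v : Option ι → ℕ => ∃ V X Y : ℕ,
      PowCond (f (fun i => v (some i))) (v none) ((2 * v none) ^ 64) V X Y) := by
    refine SF.ex (SF.ex (SF.ex ?_ ?_) ?_) ?_
    · exact SF.powCond (hf.rename _) (SFN.proj _) (((SFN.const 2).mul (SFN.proj _)).npow 64)
        (SFN.proj _) (SFN.proj _) (SFN.proj _)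
    · intro a x y h h'
      obtain ⟨_, -, e, -⟩ := h.index
      obtain ⟨_, -, e', -⟩ := h'.index
      rw [e, e']
    · rintro a x y ⟨_, h⟩ ⟨_, h'⟩
      obtain ⟨_, e, -⟩ := h.index
      obtain ⟨_, e', -⟩ := h'.index
      rw [e, e']
    · rintro a x y ⟨_, _, h⟩ ⟨_, _, h'⟩
      exact h.2.2.1.unique h'.2.2.1
  refine key.congr fun v => ⟨fun ⟨V, X, Y, h⟩ => ?_, fun h => ?_⟩
  · obtain ⟨_, -, -, e⟩ := h.index
    exact e
  · beta_reduce at h
    rw [h]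
    exact powCond_exists _

theorem pow_eq_mod (b n : ℕ) :
    b ^ n = 2 ^ ((b * n + b + 1) * n) % (2 ^ (b * n + b + 1) - b) := by
  have h1 : b < 2 ^ b := Nat.lt_two_pow_self
  have h2 : b ^ n ≤ 2 ^ (b * n) := by
    rw [pow_mul]
    exact Nat.pow_le_pow_left h1.le n
  have h3 : 2 ^ (b * n) ≤ 2 ^ (b * n + b) := Nat.pow_le_pow_right (by norm_num) (by omega)
  have h4 : 2 ^ b ≤ 2 ^ (b * n + b) := Nat.pow_le_pow_right (by norm_num) (by omega)
  have h5 : 2 ^ (b * n + b + 1) = 2 ^ (b * n + b) * 2 := pow_succ _ _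
  have h6 : b ≡ 2 ^ (b * n + b + 1) [MOD (2 ^ (b * n + b + 1) - b)] :=
    (Nat.modEq_iff_dvd' (by omega)).2 dvd_rfl
  have h7 := h6.pow n
  rw [← pow_mul] at h7
  rw [← h7, Nat.mod_eq_of_lt (by omega)]

theorem SFN.pow {ι : Type} {f g : (ι → ℕ) → ℕ} (hf : SFN f) (hg : SFN g) :
    SFN (fun a => f a ^ g a) := by
  have hK := ((hf.mul hg).add hf).add (SFN.const 1)
  exact ((hK.mul hg).two_pow.mod (hK.two_pow.sub hf)).congr fun a => (pow_eq_mod _ _).symm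

end Crest.Agent.R323
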