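import Mathlib
import Crest.Agent.R323.Pow

/-!
Counting zeros of a polynomial in a box; closure under bounded universal quantifiers.
-/

set_option autoImplicit false

namespace Crest.Agent.R323

open Finset

theorem sum_digits_succ (B N : ℕ) (d : ℕ → ℕ) :
    ∑ k ∈ range (N + 1), d k * B ^ k = d 0 + B * ∑ k ∈ range N, d (k + 1) * B ^ k := by
  rw [sum_range_succ', mul_sum, pow_zero, mul_one, add_comm]
  congr 1
  refine sum_congr rfl fun k _ => ?_
  ring

theorem digit_sum {B : ℕ} (x : ℕ) : ∀ (N : ℕ) (d : ℕ → ℕ), (∀ k < N, d k < B) → x < N →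
    (∑ k ∈ range N, d k * B ^ k) / B ^ x % B = d x := by
  induction x with
  | zero =>
    intro N d hd hx
    obtain ⟨N, rfl⟩ := Nat.exists_eq_succ_of_ne_zero hx.ne'
    rw [sum_digits_succ, pow_zero, Nat.div_one, Nat.add_mul_mod_self_left,
      Nat.mod_eq_of_lt (hd 0 hx)]
  | succ x ih =>
    intro N d hd hx
    obtain ⟨N, rfl⟩ := Nat.exists_eq_succ_of_ne_zero (show N ≠ 0 by omega)
    have h0 := hd 0 (by omega)
    rw [sum_digits_succ, pow_succ', ← Nat.div_div_eq_div_mul,
      Nat.add_mul_div_left _ _ (by omega), Nat.div_eq_of_lt h0, zero_add]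
    exact ih N (fun k => d (k + 1)) (fun k hk => hd (k + 1) (by omega)) (by omega)

theorem centralBinom_eq (x : ℕ) : (x + x).choose x =
    (2 ^ (x + x + 1) + 1) ^ (x + x) / (2 ^ (x + x + 1)) ^ x % 2 ^ (x + x + 1) := by
  rw [add_pow, ← digit_sum (B := 2 ^ (x + x + 1)) x (x + x + 1) (fun k => (x + x).choose k)
    (fun k _ => lt_of_le_of_lt (Nat.choose_le_two_pow _ _)
      (Nat.pow_lt_pow_right (by norm_num) (by omega))) (by omega)]
  congr 2
  refine sum_congr rfl fun k _ => ?_
  simp [mul_comm]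

theorem SFN.centralBinom {ι : Type} {f : (ι → ℕ) → ℕ} (hf : SFN f) :
    SFN (fun a => (f a + f a).choose (f a)) := by
  have hu := ((hf.add hf).add (SFN.const 1)).two_pow
  exact ((((hu.add (SFN.const 1)).pow (hf.add hf)).div (hu.pow hf)).mod hu).congr
    fun a => (centralBinom_eq _).symm

/-- Hamming weight. -/
def hw (x : ℕ) : ℕ := (Nat.digits 2 x).sum

theorem hw_zero : hw 0 = 0 := by simp [hw]

theorem hw_bit (b x : ℕ) (hb : b < 2) : hw (b + 2 * x) = b + hw x := by
  by_cases h : b ≠ 0 ∨ x ≠ 0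
  · rw [hw, Nat.digits_add 2 (by norm_num) b x hb h]
    simp [hw]
  · push Not at h
    simp [h.1, h.2, hw]

theorem hw_eq (x : ℕ) : hw x = padicValNat 2 ((x + x).choose x) := by
  have h := sub_one_mul_padicValNat_choose_eq_sub_sum_digits' (p := 2) (k := x) (n := x)
  have h2 := hw_bit 0 x (by norm_num)
  rw [zero_add, zero_add, two_mul] at h2
  unfold hw at h2 ⊢
  rw [h2] at h
  omega

theorem padicValNat_two_pow_mul_odd (h y : ℕ) : padicValNat 2 (2 ^ h * (2 * y + 1)) = h := by
  rw [padicValNat.mul (by positivity) (by omega), padicValNat.prime_pow,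
    padicValNat.eq_zero_of_not_dvd (by omega), add_zero]

theorem SFN.hw {ι : Type} {f : (ι → ℕ) → ℕ} (hf : SFN f) : SFN (fun a => hw (f a)) := by
  have key : SF (fun v : Option ι → ℕ => ∃ y : ℕ,
      (f (fun i => v (some i)) + f (fun i => v (some i))).choose (f (fun i => v (some i))) =
        2 ^ (v none) * (2 * y + 1)) := by
    refine SF.ex ?_ ?_
    · exact SF.eq (hf.rename _).centralBinom ((SFN.proj _).two_pow.mul
        (((SFN.const 2).mul (SFN.proj _)).add (SFN.const 1)))
    · intro a x y h h'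
      rw [h] at h'
      have := Nat.eq_of_mul_eq_mul_left (by positivity) h'
      omega
  refine key.congr fun v => ?_
  beta_reduce
  rw [hw_eq]
  constructor
  · rintro ⟨y, h⟩
    rw [h, padicValNat_two_pow_mul_odd]
  · intro h
    obtain ⟨k, m, ⟨y, rfl⟩, e⟩ := Nat.exists_eq_two_pow_mul_odd
      (n := (f (fun i => v (some i)) + f (fun i => v (some i))).choose (f (fun i => v (some i))))
      (Nat.choose_pos (by omega)).ne'
    rw [e, padicValNat_two_pow_mul_odd] at h
    exact ⟨y, by rw [e, h]⟩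

theorem hw_add_pow (l : ℕ) : ∀ d x : ℕ, d < 2 ^ l → hw (d + 2 ^ l * x) = hw d + hw x := by
  induction l with
  | zero =>
    intro d x hd
    have : d = 0 := by simpa using hd
    simp [this, hw_zero]
  | succ l ih =>
    intro d x hd
    have e : d + 2 ^ (l + 1) * x = d % 2 + 2 * (d / 2 + 2 ^ l * x) := by
      rw [pow_succ', mul_assoc]
      omega
    rw [e, hw_bit _ _ (Nat.mod_lt _ (by norm_num)), ih _ _ (by rw [pow_succ] at hd; omega),
      ← add_assoc, ← hw_bit _ _ (Nat.mod_lt _ (by norm_num)), Nat.mod_add_div]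

theorem hw_compl (L : ℕ) : ∀ x y : ℕ, x + y + 1 = 2 ^ L → hw x + hw y = L := by
  induction L with
  | zero =>
    intro x y h
    have hx : x = 0 := by omega
    have hy : y = 0 := by omega
    simp [hx, hy, hw_zero]
  | succ L ih =>
    intro x y h
    rw [pow_succ] at h
    have := ih (x / 2) (y / 2) (by omega)
    rw [← Nat.mod_add_div x 2, ← Nat.mod_add_div y 2, hw_bit _ _ (Nat.mod_lt _ (by norm_num)),
      hw_bit _ _ (Nat.mod_lt _ (by norm_num))]
    omega

theorem hw_sum_range (l N : ℕ) : ∀ d : ℕ → ℕ, (∀ k, d k < 2 ^ l) →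
    hw (∑ k ∈ range N, d k * (2 ^ l) ^ k) = ∑ k ∈ range N, hw (d k) := by
  induction N with
  | zero => intro d _; simp [hw_zero]
  | succ N ih =>
    intro d hd
    rw [sum_digits_succ, hw_add_pow _ _ _ (hd 0), ih (fun k => d (k + 1)) fun k => hd _,
      sum_range_succ', add_comm]

theorem hw_sum {α : Type} (l : ℕ) (s : Finset α) (idx : α → ℕ) (hi : Set.InjOn idx s)
    (d : α → ℕ) (hd : ∀ a ∈ s, d a < 2 ^ l) :
    hw (∑ a ∈ s, d a * (2 ^ l) ^ idx a) = ∑ a ∈ s, hw (d a) := by
  classical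
  set N := s.sup idx + 1 with hN
  have hm : ∀ a ∈ s, idx a ∈ range N := fun a ha => by
    have : idx a ≤ s.sup idx := le_sup ha
    rw [mem_range]
    omega
  set D : ℕ → ℕ := fun k => ∑ a ∈ s with idx a = k, d a with hD
  have hfib : ∀ k, (s.filter (fun a => idx a = k) = ∅) ∨
      ∃ a ∈ s, s.filter (fun a => idx a = k) = {a} := by
    intro k
    rcases (s.filter (fun a => idx a = k)).eq_empty_or_nonempty with h | ⟨a, ha⟩
    · exact Or.inl h
    · refine Or.inr ⟨a, (mem_filter.1 ha).1, eq_singleton_iff_unique_mem.2 ⟨ha, fun b hb => ?_⟩⟩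
      rw [mem_filter] at ha hb
      exact hi hb.1 ha.1 (hb.2.trans ha.2.symm)
  have e1 : ∑ a ∈ s, d a * (2 ^ l) ^ idx a = ∑ k ∈ range N, D k * (2 ^ l) ^ k := by
    rw [← sum_fiberwise_of_maps_to hm]
    refine sum_congr rfl fun k _ => ?_
    rw [hD, sum_mul]
    refine sum_congr rfl fun a ha => ?_
    rw [(mem_filter.1 ha).2]
  rw [e1, hw_sum_range l N D, ← sum_fiberwise_of_maps_to hm]
  · refine sum_congr rfl fun k _ => ?_
    rcases hfib k with h | ⟨a, -, h⟩
    · simp [hD, h, hw_zero]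
    · simp [hD, h]
  · intro k
    rcases hfib k with h | ⟨a, ha, h⟩
    · simp [hD, h]
    · simpa [hD, h] using hd a ha

/-- The zero test of Mazzanti. -/
def delta (L a : ℕ) : ℕ := (2 ^ L - 1) * (2 ^ L + 1 - a)

theorem delta_lt (L a : ℕ) : delta L a < 2 ^ (2 * L) := by
  have h : 0 < 2 ^ L := by positivity
  obtain ⟨m, hm⟩ := Nat.exists_eq_succ_of_ne_zero h.ne'
  rw [two_mul, pow_add, delta, hm]
  have : m.succ + 1 - a ≤ m + 2 := by omega
  have := Nat.mul_le_mul_left m this
  simp only [Nat.succ_eq_add_one, Nat.add_sub_cancel] at *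
  nlinarith

theorem delta_cast {L a : ℕ} (h : a ≤ 2 ^ L) :
    (delta L a : ℤ) = (2 ^ L - 1) * (2 ^ L + 1 - a) := by
  have h1 : 0 < 2 ^ L := by positivity
  rw [delta, Nat.cast_mul, Nat.cast_sub h1, Nat.cast_sub (by omega)]
  push_cast
  ring

theorem hw_delta {L a : ℕ} (h : a ≤ 2 ^ L) : hw (delta L a) = L + if a = 0 then L else 0 := by
  have h1 : 0 < 2 ^ L := by positivity
  split_ifs with ha
  · subst ha
    have e : delta L 0 = (2 ^ L - 1) + 2 ^ L * (2 ^ L - 1) := by
      rw [delta]
      simp only [tsub_zero]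
      ring
    have := hw_compl L (2 ^ L - 1) 0 (by omega)
    rw [hw_zero, add_zero] at this
    rw [e, hw_add_pow _ _ _ (by omega), this]
  · have e : delta L a = (a - 1) + 2 ^ L * (2 ^ L - a) := by
      zify
      rw [delta_cast h, Nat.cast_sub h, Nat.cast_sub (by omega)]
      push_cast
      ring
    rw [e, hw_add_pow _ _ _ (by omega), hw_compl L _ _ (by omega), add_zero]

/-- The sums `∑ j ^ r q ^ j`. -/
def geo (r q t : ℕ) : ℕ := ∑ j ∈ range t, j ^ r * q ^ j

theorem geo_rec (r q t : ℕ) : geo r q t + t ^ r * q ^ t =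
    0 ^ r + q * geo r q t + q * ∑ s ∈ range r, r.choose s * geo s q t := by
  have h1 : geo r q t + t ^ r * q ^ t = ∑ j ∈ range (t + 1), j ^ r * q ^ j := by
    rw [sum_range_succ, geo]
  rw [h1, sum_range_succ', pow_zero, mul_one, add_comm, add_assoc, ← mul_add]
  congr 1
  simp only [geo, mul_sum]
  rw [sum_comm, ← sum_add_distrib, mul_sum]
  refine sum_congr rfl fun j _ => ?_
  rw [add_pow, sum_range_succ, add_mul, mul_add, add_comm, sum_mul, mul_sum]
  congr 1
  · simp
    ring
  · refine sum_congr rfl fun s _ => ?_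
    simp
    ring

theorem SFN.geo {ι : Type} {q t : (ι → ℕ) → ℕ} (hq : SFN q) (ht : SFN t) (h2 : ∀ a, 2 ≤ q a)
    (r : ℕ) : SFN (fun a => geo r (q a) (t a)) := by
  induction r using Nat.strong_induction_on with
  | _ r ih =>
    have hs : SFN (fun a => ∑ s ∈ range r, r.choose s * R323.geo s (q a) (t a)) := by
      have := SFN.sum (range r).attach (f := fun s a => r.choose s * R323.geo s (q a) (t a))
        fun s => (SFN.const _).mul (ih s (mem_range.1 s.2))
      refine this.congr fun a => ?_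
      exact sum_attach (range r) (fun s => r.choose s * R323.geo s (q a) (t a))
    have key := ((((ht.npow r).mul (hq.pow ht)).sub ((SFN.const (0 ^ r)).add (hq.mul hs))).div
      (hq.sub (SFN.const 1)))
    refine key.congr fun a => ?_
    have h := geo_rec r (q a) (t a)
    have h3 := h2 a
    obtain ⟨m, hm⟩ : ∃ m, q a = m + 1 := ⟨q a - 1, by omega⟩
    rw [Nat.div_eq_iff_eq_mul_left (by omega)]
    · rw [hm] at h ⊢
      rw [Nat.add_sub_cancel, mul_comm _ m]
      rw [add_mul m 1 (R323.geo r (m + 1) (t a))] at h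
      omega
    · rw [hm] at h ⊢
      rw [Nat.add_sub_cancel]
      refine ⟨R323.geo r (m + 1) (t a), ?_⟩
      rw [add_mul m 1 (R323.geo r (m + 1) (t a))] at h
      omega

theorem SFZ.boxSum {ι κ : Type} [Fintype ι] [Fintype κ] [DecidableEq κ]
    {F : (ι ⊕ κ → ℕ) → ℤ} (hF : IsPoly F)
    {q t : κ → (ι → ℕ) → ℕ} (hq : ∀ k, SFN (q k)) (ht : ∀ k, SFN (t k)) (h2 : ∀ k a, 2 ≤ q k a) :
    SFZ (fun a => ∑ w ∈ Fintype.piFinset (fun k => range (t k a)),
      F (Sum.elim a w) * ∏ k, (q k a : ℤ) ^ w k) := by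
  obtain ⟨P, hP⟩ := hF
  simp only [hP]
  clear hP
  induction P using MvPolynomial.induction_on' with
  | monomial u c =>
    have key := ((SFZ.const c).mul (SFZ.cast (SFN.prod univ
      (f := fun i (a : ι → ℕ) => a i ^ u (Sum.inl i)) fun i => (SFN.proj i).npow _))).mul
      (SFZ.cast (SFN.prod univ (f := fun k a => R323.geo (u (Sum.inr k)) (q k a) (t k a))
        fun k => SFN.geo (hq k) (ht k) (h2 k) _))
    refine key.congr fun a => ?_
    simp only [R323.geo]
    rw [prod_univ_sum]
    push_cast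
    rw [mul_sum]
    refine sum_congr rfl fun w _ => ?_
    rw [MvPolynomial.eval_monomial, Finsupp.prod_fintype _ _ (by simp), Fintype.prod_sum_type,
      prod_mul_distrib]
    simp only [Sum.elim_inl, Sum.elim_inr]
    ring
  | add P Q hP hQ =>
    refine (hP.add hQ).congr fun a => ?_
    rw [← sum_add_distrib]
    refine sum_congr rfl fun w _ => ?_
    rw [map_add, add_mul]

theorem idx_inj {m B : ℕ} {w w' : Fin m → ℕ} (h : ∀ k, w k < B) (h' : ∀ k, w' k < B)
    (e : ∑ k, w k * B ^ (k : ℕ) = ∑ k, w' k * B ^ (k : ℕ)) : w = w' := by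
  have : finFunctionFinEquiv (fun k => (⟨w k, h k⟩ : Fin B)) =
      finFunctionFinEquiv (fun k => (⟨w' k, h' k⟩ : Fin B)) := by
    apply Fin.ext
    rw [finFunctionFinEquiv_apply, finFunctionFinEquiv_apply]
    exact e
  have := finFunctionFinEquiv.injective this
  funext k
  simpa using congrFun this k

theorem SFN.count {ι κ : Type} [Fintype ι] [Fintype κ] [DecidableEq κ]
    {F : (ι ⊕ κ → ℕ) → ℤ} (hF : IsPoly F) {t : κ → (ι → ℕ) → ℕ} (ht : ∀ k, SFN (t k)) :
    SFN (fun a => ((Fintype.piFinset (fun k => range (t k a))).filter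
      (fun w => F (Sum.elim a w) = 0)).card) := by
  set e := Fintype.equivFin κ
  set L : (ι → ℕ) → ℕ := fun a => (∑ w ∈ Fintype.piFinset (fun k => range (t k a)),
      F (Sum.elim a w) ^ 2 * ∏ k, ((2 : ℕ) : ℤ) ^ w k).toNat + 1 with hL
  have sL : SFN L := (SFZ.boxSum (hF.pow 2) (q := fun _ _ => 2) (fun _ => SFN.const 2) ht
    (fun _ _ => le_rfl)).toNat.add (SFN.const 1)
  set B : (ι → ℕ) → ℕ := fun a => ∑ k, t k a with hB
  have sB : SFN B := SFN.sum _ ht
  set q : κ → (ι → ℕ) → ℕ := fun k a => (2 ^ (2 * L a)) ^ ((B a + 1) ^ (e k : ℕ)) with hq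
  have sq : ∀ k, SFN (q k) := fun k =>
    ((SFN.const 2).mul sL).two_pow.pow ((sB.add (SFN.const 1)).npow _)
  have q2 : ∀ k a, 2 ≤ q k a := by
    intro k a
    rw [hq]
    beta_reduce
    rw [← pow_mul]
    refine Nat.le_self_pow ?_ 2
    have : 0 < L a := by rw [hL]; exact Nat.succ_pos _
    positivity
  have s1 := SFZ.boxSum (F := fun _ : ι ⊕ κ → ℕ => 1) (IsPoly.const 1) sq ht q2
  have s2 := SFZ.boxSum (hF.pow 2) sq ht q2
  have sP := SFZ.cast sL.two_pow
  have sM := ((sP.sub (SFZ.const 1)).mul (((sP.add (SFZ.const 1)).mul s1).sub s2)).toNat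
  have key := (sM.hw.div sL).sub (SFN.prod univ ht)
  refine key.congr fun a => ?_
  set box := Fintype.piFinset (fun k => range (t k a)) with hbox
  have hle : ∀ w ∈ box, (F (Sum.elim a w) ^ 2).toNat ≤ 2 ^ L a := by
    intro w hw
    have h1 : F (Sum.elim a w) ^ 2 ≤ F (Sum.elim a w) ^ 2 * ∏ k, ((2 : ℕ) : ℤ) ^ w k :=
      le_mul_of_one_le_right (sq_nonneg _) (Int.add_one_le_of_lt (show (0 : ℤ) < _ by positivity))
    have h2 : F (Sum.elim a w) ^ 2 * ∏ k, ((2 : ℕ) : ℤ) ^ w k ≤ ∑ w ∈ box,
        F (Sum.elim a w) ^ 2 * ∏ k, ((2 : ℕ) : ℤ) ^ w k :=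
      single_le_sum (f := fun w => F (Sum.elim a w) ^ 2 * ∏ k, ((2 : ℕ) : ℤ) ^ w k)
        (fun w _ => by positivity) hw
    have h3 : L a < 2 ^ L a := Nat.lt_two_pow_self
    have h4 := Int.toNat_le_toNat (h1.trans h2)
    have h5 : L a = (∑ w ∈ box, F (Sum.elim a w) ^ 2 * ∏ k, ((2 : ℕ) : ℤ) ^ w k).toNat + 1 := rfl
    omega
  set idx : (κ → ℕ) → ℕ := fun w => ∑ k, w k * (B a + 1) ^ (e k : ℕ) with hidx
  have hinj : Set.InjOn idx box := by
    intro w hw w' hw' h
    have hb : ∀ w ∈ box, ∀ k, w k < B a + 1 := by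
      intro w hw k
      have h1 := mem_range.1 (Fintype.mem_piFinset.1 hw k)
      have h2 : t k a ≤ B a := single_le_sum (f := fun k => t k a) (fun _ _ => Nat.zero_le _)
        (mem_univ k)
      omega
    have := idx_inj (w := fun j => w (e.symm j)) (w' := fun j => w' (e.symm j))
      (fun j => hb w hw _) (fun j => hb w' hw' _) (by
        rw [← Equiv.sum_comp e, ← Equiv.sum_comp e]
        simpa using h)
    funext k
    simpa using congrFun this (e k)
  have eM : ((((2 ^ L a : ℕ) : ℤ) - 1) * (((((2 ^ L a : ℕ) : ℤ) + 1) *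
      ∑ w ∈ box, 1 * ∏ k, (q k a : ℤ) ^ w k) -
      ∑ w ∈ box, F (Sum.elim a w) ^ 2 * ∏ k, (q k a : ℤ) ^ w k)).toNat =
      ∑ w ∈ box, delta (L a) (F (Sum.elim a w) ^ 2).toNat * (2 ^ (2 * L a)) ^ idx w := by
    rw [← Int.toNat_natCast (∑ w ∈ box, delta (L a) _ * _)]
    congr 1
    rw [mul_sum, ← sum_sub_distrib, mul_sum, Nat.cast_sum]
    refine sum_congr rfl fun w hw => ?_
    have e1 : ∏ k, (q k a : ℤ) ^ w k = (((2 ^ (2 * L a)) ^ idx w : ℕ) : ℤ) := by
      rw [hidx]
      beta_reduce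
      rw [← prod_pow_eq_pow_sum, Nat.cast_prod]
      refine prod_congr rfl fun k _ => ?_
      rw [mul_comm (w k), pow_mul]
      push_cast [hq]
      rfl
    rw [Nat.cast_mul, delta_cast (hle w hw), e1, Int.toNat_of_nonneg (sq_nonneg _)]
    push_cast
    ring
  rw [eM, hw_sum _ _ _ hinj _ fun w _ => delta_lt _ _]
  have e2 : ∑ w ∈ box, R323.hw (delta (L a) (F (Sum.elim a w) ^ 2).toNat) =
      L a * (∏ k, t k a + (box.filter (fun w => F (Sum.elim a w) = 0)).card) := by
    rw [sum_congr rfl fun w hw => hw_delta (hle w hw), sum_add_distrib, mul_add, sum_const,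
      ← sum_filter, sum_const, smul_eq_mul, smul_eq_mul, mul_comm (L a), mul_comm (L a)]
    congr 2
    · rw [hbox, Fintype.card_piFinset]
      simp
    · congr 1
      refine filter_congr fun w _ => ?_
      rw [Int.toNat_eq_zero]
      constructor
      · intro h
        exact pow_eq_zero_iff (two_ne_zero) |>.1 (le_antisymm h (sq_nonneg _))
      · intro h
        simp [h]
  rw [e2, Nat.mul_div_cancel_left _ (Nat.succ_pos _), Nat.add_sub_cancel_left]

theorem SF.ball {ι : Type} [Fintype ι] {R : (ι → ℕ) → ℕ → Prop}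
    (hR : SF (fun v : Option ι → ℕ => R (fun i => v (some i)) (v none)))
    {n : (ι → ℕ) → ℕ} (hn : SFN n) : SF (fun a => ∀ i < n a, R a i) := by
  classical
  obtain ⟨κ, _, F, hF, h1, h2⟩ := hR
  -- the number of solutions in a box
  let cnt : (ι → ℕ) → ℕ → ℕ := fun a t =>
    ((Fintype.piFinset (fun o : Option κ => range (o.elim (n a) fun _ => t))).filter
      (fun w => F (Sum.elim (fun o => o.elim (w none) a) (fun k => w (some k))) = 0)).card
  have scnt : ∀ {t : (Option ι → ℕ) → ℕ}, SFN t →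
      SFN (fun v : Option ι → ℕ => cnt (fun i => v (some i)) (t v)) := by
    intro t ht
    let ρ : Option ι ⊕ κ → Option ι ⊕ Option κ :=
      Sum.elim (fun o => o.elim (Sum.inr none) fun i => Sum.inl (some i)) fun k => Sum.inr (some k)
    have := SFN.count (hF.rename ρ)
      (t := fun o v => o.elim (n (fun i => v (some i))) fun _ => t v) (by
        rintro (_ | k)
        · exact hn.rename _
        · exact ht)
    refine this.congr fun v => ?_
    congr 1
    refine filter_congr fun w _ => ?_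
    have : (fun i => Sum.elim v w (ρ i)) =
        Sum.elim (fun o => o.elim (w none) fun i => v (some i)) fun k => w (some k) := by
      funext i
      rcases i with (_ | i) | k <;> rfl
    rw [this]
  have hcnt : ∀ a t, cnt a t = n a ↔ ∀ i < n a, ∃ w : κ → ℕ, (∀ k, w k < t) ∧
      F (Sum.elim (fun o => o.elim i a) w) = 0 := by
    intro a t
    set s := (Fintype.piFinset (fun o : Option κ => range (o.elim (n a) fun _ => t))).filter
      (fun w => F (Sum.elim (fun o => o.elim (w none) a) (fun k => w (some k))) = 0) with hs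
    have hinj : Set.InjOn (fun w : Option κ → ℕ => w none) s := by
      intro w hw w' hw' e
      have p := (mem_filter.1 hw).2
      have q := (mem_filter.1 hw').2
      beta_reduce at e
      rw [e] at p
      have := h2 _ _ _ p q
      funext o
      cases o with
      | none => exact e
      | some k => exact congrFun this k
    have hsub : s.image (fun w => w none) ⊆ range (n a) := by
      intro i hi
      obtain ⟨w, hw, rfl⟩ := mem_image.1 hi
      exact Fintype.mem_piFinset.1 (mem_filter.1 hw).1 none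
    have hc : cnt a t = (s.image (fun w => w none)).card := (card_image_of_injOn hinj).symm
    rw [hc]
    constructor
    · intro h i hi
      have e := eq_of_subset_of_card_le hsub (by rw [h, card_range])
      rw [← mem_range, ← e] at hi
      obtain ⟨w, hw, rfl⟩ := mem_image.1 hi
      refine ⟨fun k => w (some k), fun k => ?_, (mem_filter.1 hw).2⟩
      exact mem_range.1 (Fintype.mem_piFinset.1 (mem_filter.1 hw).1 (some k))
    · intro h
      have : s.image (fun w => w none) = range (n a) := by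
        refine Subset.antisymm hsub fun i hi => ?_
        obtain ⟨w, hw1, hw2⟩ := h i (mem_range.1 hi)
        refine mem_image.2 ⟨fun o => o.elim i w, mem_filter.2 ⟨?_, hw2⟩, rfl⟩
        rw [Fintype.mem_piFinset]
        rintro (_ | k)
        · exact hi
        · exact mem_range.2 (hw1 k)
      rw [this, card_range]
  have mono : ∀ a t t', t ≤ t' → cnt a t = n a → cnt a t' = n a := by
    intro a t t' ht h
    rw [hcnt] at h ⊢
    intro i hi
    obtain ⟨w, hw1, hw2⟩ := h i hi
    exact ⟨w, fun k => (hw1 k).trans_le ht, hw2⟩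
  have key : SF (fun a => ∃ t, cnt a t = n a ∧ (t = 0 ∨ (0 < t ∧ cnt a (t - 1) ≠ n a))) := by
    refine SF.ex ?_ ?_
    · exact (SF.eq (scnt (SFN.proj none)) (hn.rename _)).and
        ((SF.eq (SFN.proj none) (SFN.const 0)).or ((SF.lt (SFN.const 0) (SFN.proj none)).and
          (SF.ne (scnt ((SFN.proj none).sub (SFN.const 1))) (hn.rename _)))
          fun a p q => by omega)
    · rintro a x y ⟨p1, p2⟩ ⟨q1, q2⟩
      by_contra hne
      rcases lt_or_gt_of_ne hne with h | h
      · rcases q2 with q2 | ⟨_, q2⟩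
        · omega
        · exact q2 (mono a x _ (by omega) p1)
      · rcases p2 with p2 | ⟨_, p2⟩
        · omega
        · exact p2 (mono a y _ (by omega) q1)
  refine key.congr fun a => ⟨fun ⟨t, ht, _⟩ i hi => ?_, fun h => ?_⟩
  · obtain ⟨w, -, hw⟩ := (hcnt a t).1 ht i hi
    exact (h1 (fun o => o.elim i a)).2 ⟨w, hw⟩
  · have hex : ∃ t, cnt a t = n a := by
      have h' : ∀ i, ∃ w : κ → ℕ, i < n a → F (Sum.elim (fun o => o.elim i a) w) = 0 := by
        intro i
        by_cases hi : i < n a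
        · obtain ⟨w, hw⟩ := (h1 (fun o => o.elim i a)).1 (h i hi)
          exact ⟨w, fun _ => hw⟩
        · exact ⟨0, fun h => absurd h hi⟩
      choose w hw using h'
      refine ⟨(∑ i ∈ range (n a), ∑ k, w i k) + 1, (hcnt a _).2 fun i hi =>
        ⟨w i, fun k => Nat.lt_succ_of_le ?_, hw i hi⟩⟩
      exact (single_le_sum (f := fun k => w i k) (fun _ _ => Nat.zero_le _) (mem_univ k)).trans
        (single_le_sum (f := fun i => ∑ k, w i k) (fun _ _ => Nat.zero_le _) (mem_range.2 hi))
    refine ⟨Nat.find hex, Nat.find_spec hex, ?_⟩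
    rcases Nat.eq_zero_or_pos (Nat.find hex) with h0 | h0
    · exact Or.inl h0
    · exact Or.inr ⟨h0, Nat.find_min hex (by omega)⟩

end Crest.Agent.R323
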