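import Mathlib
import Crest.Agent.R323.Count

/-!
Primitive recursive functions have single-fold Diophantine graphs; recursively enumerable
predicates are single-fold Diophantine.
-/

set_option autoImplicit false

namespace Crest.Agent.R323

open Finset

/-- Relations that are single-fold Diophantine together with their complement. -/
def SFD {ι : Type} (S : (ι → ℕ) → Prop) : Prop := SF S ∧ SF (fun a => ¬ S a)

namespace SFD

variable {ι ι' : Type} {S T : (ι → ℕ) → Prop} {f g : (ι → ℕ) → ℕ}

theorem congr (h : SFD S) (hST : ∀ a, S a ↔ T a) : SFD T := by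
  have : S = T := funext fun a => propext (hST a)
  rwa [← this]

theorem rename (h : SFD S) (e : ι → ι') : SFD (fun v : ι' → ℕ => S (fun i => v (e i))) :=
  ⟨h.1.rename e, h.2.rename e⟩

theorem not (h : SFD S) : SFD (fun a => ¬ S a) := ⟨h.2, h.1.congr fun _ => by simp⟩

theorem and (hS : SFD S) (hT : SFD T) : SFD (fun a => S a ∧ T a) :=
  ⟨hS.1.and hT.1, (hS.2.or (hS.1.and hT.2) fun _ p q => p q.1).congr fun a => by tauto⟩

theorem eq (hf : SFN f) (hg : SFN g) : SFD (fun a => f a = g a) := ⟨SF.eq hf hg, SF.ne hf hg⟩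

theorem lt (hf : SFN f) (hg : SFN g) : SFD (fun a => f a < g a) :=
  ⟨SF.lt hf hg, (SF.le hg hf).congr fun _ => by simp⟩

theorem ex [Fintype ι] {R : (ι → ℕ) → ℕ → Prop}
    (hR : SFD (fun v : Option ι → ℕ => R (fun i => v (some i)) (v none))) :
    SF (fun a => ∃ x, R a x) := by
  classical
  have key : SF (fun a => ∃ x, R a x ∧ ∀ y < x, ¬ R a y) := by
    refine SF.ex (hR.1.and (SF.ball (R := fun v y => ¬ R (fun i => v (some i)) y) ?_
      (SFN.proj none))) ?_
    · exact hR.2.rename (Option.map some)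
    · rintro a x y ⟨p1, p2⟩ ⟨q1, q2⟩
      by_contra hne
      rcases lt_or_gt_of_ne hne with h | h
      · exact q2 x h p1
      · exact p2 y h q1
  refine key.congr fun a => ⟨fun ⟨x, h, _⟩ => ⟨x, h⟩, fun h => ?_⟩
  exact ⟨Nat.find h, Nat.find_spec h, fun y hy => Nat.find_min h hy⟩

theorem ball [Fintype ι] {R : (ι → ℕ) → ℕ → Prop}
    (hR : SFD (fun v : Option ι → ℕ => R (fun i => v (some i)) (v none)))
    {n : (ι → ℕ) → ℕ} (hn : SFN n) : SFD (fun a => ∀ i < n a, R a i) := by
  refine ⟨SF.ball hR.1 hn, ?_⟩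
  have : SF (fun a => ∃ i, i < n a ∧ ¬ R a i) :=
    SFD.ex ((SFD.lt (SFN.proj none) (hn.rename _)).and hR.not)
  exact this.congr fun a => by simp

theorem bex [Fintype ι] {R : (ι → ℕ) → ℕ → Prop}
    (hR : SFD (fun v : Option ι → ℕ => R (fun i => v (some i)) (v none)))
    {n : (ι → ℕ) → ℕ} (hn : SFN n) : SFD (fun a => ∃ i < n a, R a i) :=
  (SFD.ball (R := fun a i => ¬ R a i) hR.not hn).not.congr fun a => by simp

end SFD

theorem SFN.natRec {ι : Type} [Fintype ι] {f n : (ι → ℕ) → ℕ} {g : (ι → ℕ) → ℕ → ℕ → ℕ}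
    (hf : SFN f) (hn : SFN n)
    (hg : SFN (fun v : Option (Option ι) → ℕ =>
      g (fun i => v (some (some i))) (v (some none)) (v none))) :
    SFN (fun a => Nat.rec (f a) (fun y IH => g a y IH) (n a)) := by
  have hg' : ∀ {μ : Type} (e : ι → μ) {p q : (μ → ℕ) → ℕ}, SFN p → SFN q →
      SFN (fun v : μ → ℕ => g (fun i => v (e i)) (p v) (q v)) := by
    intro μ e p q hp hq
    exact hg.comp (f := fun o => o.elim q fun o => o.elim p fun i v => v (e i)) (by
      rintro (_ | _ | i)
      · exact hq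
      · exact hp
      · exact SFN.proj _)
  have key : SF (fun v : Option ι → ℕ => ∃ z, ∃ B < z, ∃ s < z,
      s / B ^ 0 % B = f (fun i => v (some i)) ∧
      (∀ j < n (fun i => v (some i)),
        s / B ^ (j + 1) % B = g (fun i => v (some i)) j (s / B ^ j % B)) ∧
      s / B ^ (n (fun i => v (some i))) % B = v none) := by
    refine SFD.ex (SFD.bex (SFD.bex (SFD.and ?_ (SFD.and (SFD.ball ?_ ?_) ?_)) (SFN.proj _))
      (SFN.proj _))
    · exact SFD.eq (((SFN.proj _).div ((SFN.proj _).npow 0)).mod (SFN.proj _)) (hf.rename _)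
    · exact SFD.eq (((SFN.proj _).div ((SFN.proj _).pow ((SFN.proj _).add (SFN.const 1)))).mod
        (SFN.proj _)) (hg' _ (SFN.proj _)
          (((SFN.proj _).div ((SFN.proj _).pow (SFN.proj _))).mod (SFN.proj _)))
    · exact hn.rename _
    · exact SFD.eq (((SFN.proj _).div ((SFN.proj _).pow (hn.rename _))).mod (SFN.proj _))
        (SFN.proj _)
  refine key.congr fun v => ?_
  beta_reduce
  generalize (fun i => v (some i)) = a
  generalize v none = y
  set h : ℕ → ℕ := fun m => Nat.rec (f a) (fun y IH => g a y IH) m with hh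
  change _ ↔ y = h (n a)
  constructor
  · rintro ⟨z, B, -, s, -, h0, h1, h2⟩
    have : ∀ j ≤ n a, s / B ^ j % B = h j := by
      intro j
      induction j with
      | zero => exact fun _ => h0
      | succ j ih =>
        intro hj
        rw [h1 j hj, ih (by omega)]
    rw [← h2, this _ le_rfl]
  · rintro rfl
    set B := (∑ j ∈ range (n a + 1), h j) + 1 with hB
    set s := ∑ j ∈ range (n a + 1), h j * B ^ j with hs
    have hd : ∀ j < n a + 1, s / B ^ j % B = h j := fun j hj =>
      digit_sum j _ h (fun k hk => Nat.lt_succ_of_le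
        (single_le_sum (f := h) (fun _ _ => Nat.zero_le _) (mem_range.2 hk))) hj
    refine ⟨B + s + 1, B, by omega, s, by omega, hd 0 (by omega), fun j hj => ?_,
      hd _ (by omega)⟩
    rw [hd _ (by omega), hd _ (by omega)]

theorem sfn_of_primrec' {n : ℕ} {f : List.Vector ℕ n → ℕ} (hf : Nat.Primrec' f) :
    SFN (fun a : Fin n → ℕ => f (List.Vector.ofFn a)) := by
  induction hf with
  | zero => exact SFN.const 0
  | succ =>
    exact ((SFN.proj (0 : Fin 1)).add (SFN.const 1)).congr fun a => by simp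
  | get i => exact (SFN.proj i).congr fun a => by simp
  | comp g _ _ ihf ihg => exact ihf.comp ihg
  | @prec n f g _ _ ihf ihg =>
    have h1 := ihf.rename (ι' := Fin (n + 1)) Fin.succ
    have h2 := ihg.rename (ι' := Option (Option (Fin (n + 1))))
      (Fin.cons (some none) (Fin.cons none fun i => some (some i.succ)))
    have := SFN.natRec (g := fun a y IH =>
      g (y ::ᵥ IH ::ᵥ List.Vector.ofFn fun i => a (Fin.succ i))) h1 (SFN.proj 0) (by
        refine h2.congr fun v => ?_
        simp [List.Vector.ofFn])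
    refine this.congr fun a => ?_
    simp

theorem sf_of_re {n : ℕ} {p : (Fin n → ℕ) → Prop} (hp : REPred p) : SF p := by
  obtain ⟨c, hc⟩ := Nat.Partrec.Code.exists_code.1 hp
  let enc : (Fin n → ℕ) → ℕ := @Encodable.encode _ Primcodable.toEncodable
  have henc : Primrec enc := Primrec.encode
  let G : List.Vector ℕ (n + 1) → ℕ := fun v =>
    Encodable.encode (Nat.Partrec.Code.evaln v.head c (enc v.tail.get))
  have hG : Primrec G := by
    refine Primrec.encode.comp ?_
    exact Nat.Partrec.Code.primrec_evaln.comp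
      (((Primrec.vector_head).pair (Primrec.const c)).pair
        (henc.comp (Primrec.vector_get'.comp Primrec.vector_tail)))
  have h1 := (sfn_of_primrec' (Nat.Primrec'.of_prim hG)).rename (ι' := Option (Fin n))
    (Fin.cons none some)
  have h2 : SF (fun a : Fin n → ℕ => ∃ k, ¬
      Encodable.encode (Nat.Partrec.Code.evaln k c (enc a)) = 0) := by
    refine SFD.ex (SFD.eq (h1.congr fun v => ?_) (SFN.const 0)).not
    have e : (List.Vector.ofFn fun i => v (some i)).get = fun i => v (some i) :=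
      funext fun i => List.Vector.get_ofFn _ _
    simp [G, e]
  refine h2.congr fun a => ?_
  have e : (c.eval (enc a)).Dom ↔ p a := by
    rw [hc]
    simp [Part.assert, enc]
  rw [← e, Part.dom_iff_mem]
  simp only [Nat.Partrec.Code.evaln_complete]
  constructor
  · rintro ⟨k, hk⟩
    rcases h : Nat.Partrec.Code.evaln k c (enc a) with _ | x
    · rw [h] at hk
      exact absurd rfl hk
    · exact ⟨x, k, h⟩
  · rintro ⟨x, k, h⟩
    refine ⟨k, ?_⟩
    rw [Option.mem_def.1 h]
    simp

theorem SF.final {n : ℕ} {p : (Fin n → ℕ) → Prop} (hp : SF p) :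
    ∃ m : ℕ, 1 ≤ m ∧ ∃ P : MvPolynomial (Fin n ⊕ Fin m) ℤ, ∀ a : Fin n → ℕ,
      (p a → ∃! w : Fin m → ℕ, MvPolynomial.eval
        (Sum.elim (fun i => (a i : ℤ)) (fun j => (w j : ℤ))) P = 0) ∧
      (¬ p a → ∀ w : Fin m → ℕ, MvPolynomial.eval
        (Sum.elim (fun i => (a i : ℤ)) (fun j => (w j : ℤ))) P ≠ 0) := by
  obtain ⟨κ, _, F, hF, h1, h2⟩ := hp
  set e := Fintype.equivFin (Option κ)
  obtain ⟨P, hP⟩ := ((hF.rename (ι' := Fin n ⊕ Fin (Fintype.card (Option κ)))
    (Sum.map id fun k => e (some k))).pow 2).add (IsPoly.proj (Sum.inr (e none)))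
  have key : ∀ (a : Fin n → ℕ) (w : Fin (Fintype.card (Option κ)) → ℕ),
      MvPolynomial.eval (Sum.elim (fun i => (a i : ℤ)) (fun j => (w j : ℤ))) P = 0 ↔
        F (Sum.elim a fun k => w (e (some k))) = 0 ∧ w (e none) = 0 := by
    intro a w
    have e1 : (Sum.elim (fun i => (a i : ℤ)) (fun j => (w j : ℤ))) =
        fun i => ((Sum.elim a w i : ℕ) : ℤ) := by
      funext i
      cases i <;> rfl
    have e2 : (fun i => Sum.elim a w (Sum.map id (fun k => e (some k)) i)) =
        Sum.elim a fun k => w (e (some k)) := by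
      funext i
      cases i <;> rfl
    rw [e1, ← hP]
    simp only [e2, Sum.elim_inr]
    generalize F (Sum.elim a fun k => w (e (some k))) = x
    generalize w (e none) = y
    constructor
    · intro h
      have hy : (0 : ℤ) ≤ y := Int.natCast_nonneg _
      have hx : x = 0 := by nlinarith [sq_nonneg x]
      refine ⟨hx, ?_⟩
      rw [hx] at h
      simpa using h
    · rintro ⟨rfl, rfl⟩
      simp
  refine ⟨Fintype.card (Option κ), by simp, P, fun a => ⟨fun ha => ?_, fun ha w hw => ?_⟩⟩
  · obtain ⟨w, hw⟩ := (h1 a).1 ha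
    refine ⟨fun j => (e.symm j).elim 0 w, (key _ _).2 ⟨by simpa using hw, by simp⟩, ?_⟩
    intro w' hw'
    obtain ⟨p1, p2⟩ := (key _ _).1 hw'
    have := h2 _ _ _ p1 hw
    funext j
    obtain ⟨o, rfl⟩ := e.surjective j
    cases o with
    | none => simpa using p2
    | some k => simpa using congrFun this k
  · exact ha ((h1 a).2 ⟨_, ((key _ _).1 hw).1⟩)

end Crest.Agent.R323
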